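import Vale.Agent.Lib.P226E.Slice

open MeasureTheory ProbabilityTheory Real Set Filter Topology

namespace Vale.Agent.P226E

variable {E : Type*} [NormedAddCommGroup E] [InnerProductSpace ℝ E]

/-! ### Linear algebra of obtuse systems -/

/-- The only linear relations of an obtuse system with zero sum are the constant ones. -/
theorem obtuse_relation {k : ℕ} {z : Fin k → E} (hsum : ∑ j, z j = 0)
    (hobt : ∀ i j, i ≠ j → inner ℝ (z i) (z j) < (0 : ℝ)) {c : Fin k → ℝ}
    (hc : ∑ j, c j • z j = 0) (i j : Fin k) : c i = c j := by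
  have hne : (Finset.univ : Finset (Fin k)).Nonempty := ⟨i, Finset.mem_univ i⟩
  obtain ⟨j0, _, hj0⟩ := Finset.exists_min_image Finset.univ c hne
  have h1 : ∑ j, (c j - c j0) • z j = 0 := by
    simp_rw [sub_smul]
    rw [Finset.sum_sub_distrib, hc, ← Finset.smul_sum, hsum]
    simp
  have h2 : ∑ j, (c j - c j0) * inner ℝ (z j) (z j0) = 0 := by
    have := congrArg (fun v => inner ℝ v (z j0)) h1
    simp only [sum_inner, inner_smul_left, inner_zero_left] at this
    simpa using this
  have h3 : ∀ j ∈ Finset.univ, (c j - c j0) * inner ℝ (z j) (z j0) ≤ 0 := by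
    intro j hj
    rcases eq_or_ne j j0 with rfl | hjj
    · simp
    · have h4 := hj0 j hj
      have h5 := hobt j j0 hjj
      nlinarith
  have h6 := (Finset.sum_eq_zero_iff_of_nonpos h3).mp h2
  have h7 : ∀ j, c j = c j0 := by
    intro j
    rcases eq_or_ne j j0 with rfl | hjj
    · rfl
    · have h8 := h6 j (Finset.mem_univ j)
      rcases mul_eq_zero.mp h8 with h | h
      · linarith
      · exact absurd h (hobt j j0 hjj).ne
  rw [h7 i, h7 j]

/-- The dual vector of a cell: it has unit slope against all walls of the cell. -/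
theorem exists_xi [FiniteDimensional ℝ E] {k : ℕ} {z : Fin k → E} (hsum : ∑ j, z j = 0)
    (hobt : ∀ i j, i ≠ j → inner ℝ (z i) (z j) < (0 : ℝ)) (i : Fin k) :
    ∃ ξ : E, ∀ j, j ≠ i → inner ℝ ξ (z i - z j) = (1 : ℝ) := by
  classical
  set S : ({j // j ≠ i} → ℝ) →ₗ[ℝ] E :=
    Fintype.linearCombination ℝ (fun j : {j // j ≠ i} => z i - z j) with hS
  have hinj : LinearMap.ker S = ⊥ := by
    rw [LinearMap.ker_eq_bot']
    intro b hb
    rw [hS, Fintype.linearCombination_apply] at hb
    set c : Fin k → ℝ := fun j => if h : j ≠ i then -b ⟨j, h⟩ else ∑ l, b l with hcdef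
    have hci : c i = ∑ l, b l := by simp [hcdef]
    have hcj : ∀ l : {j // j ≠ i}, c l = -b l := fun l => by simp [hcdef, l.2]
    have hsumc : ∑ j, c j • z j = 0 := by
      rw [← Finset.add_sum_erase _ _ (Finset.mem_univ i), hci]
      have e1 : ∑ j ∈ Finset.univ.erase i, c j • z j = ∑ l : {j // j ≠ i}, c l • z l := by
        rw [← Finset.sum_subtype (Finset.univ.erase i) (by simp) (fun j => c j • z j)]
      rw [e1]
      simp_rw [hcj, neg_smul]
      rw [Finset.sum_neg_distrib, Finset.sum_smul, ← sub_eq_add_neg, ← Finset.sum_sub_distrib]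
      simp_rw [← smul_sub]
      exact hb
    have hconst := obtuse_relation hsum hobt hsumc
    have hb' : ∀ l : {j // j ≠ i}, b l = -(∑ l, b l) := by
      intro l
      have := hconst l i
      rw [hcj, hci] at this
      linarith
    have hsumb : ∑ l, b l = 0 := by
      have h1 : ∑ l, b l = ∑ _l : {j // j ≠ i}, -(∑ l, b l) :=
        Finset.sum_congr rfl fun l _ => hb' l
      rw [Finset.sum_const, nsmul_eq_mul] at h1
      have h2 : (0 : ℝ) ≤ (Finset.univ : Finset {j // j ≠ i}).card := Nat.cast_nonneg _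
      have h3 : (1 + ((Finset.univ : Finset {j // j ≠ i}).card : ℝ)) * ∑ l, b l = 0 := by
        linarith
      rcases mul_eq_zero.mp h3 with h | h
      · linarith
      · exact h
    ext l
    rw [hb' l, hsumb]
    simp
  obtain ⟨g, hg⟩ := S.exists_leftInverse_of_injective hinj
  set f : E →ₗ[ℝ] ℝ := (∑ l : {j // j ≠ i}, LinearMap.proj l).comp g with hf
  have hfv : ∀ l : {j // j ≠ i}, f (z i - z l) = 1 := by
    intro l
    have h1 : S (Pi.single l 1) = z i - z l := by
      rw [hS, Fintype.linearCombination_apply_single, one_smul]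
    have h2 : g (z i - z l) = Pi.single l 1 := by
      rw [← h1]
      have := congrArg (fun φ => φ (Pi.single l (1 : ℝ))) hg
      simpa using this
    rw [hf, LinearMap.comp_apply, h2]
    simp [LinearMap.sum_apply]
  refine ⟨(InnerProductSpace.toDual ℝ E).symm (LinearMap.toContinuousLinearMap f), fun j hj => ?_⟩
  rw [InnerProductSpace.toDual_symm_apply]
  exact hfv ⟨j, hj⟩

/-- The product of the dual vector with the corresponding generator. -/
theorem inner_xi {k : ℕ} {z : Fin k → E} (hsum : ∑ j, z j = 0) {i : Fin k} {ξ : E}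
    (hξ : ∀ j, j ≠ i → inner ℝ ξ (z i - z j) = (1 : ℝ)) :
    inner ℝ (z i) ξ = ((k : ℝ) - 1) / k := by
  have hk : 0 < k := i.pos
  have hk' : (0 : ℝ) < k := Nat.cast_pos.mpr hk
  have h1 : ∑ j ∈ Finset.univ.erase i, inner ℝ ξ (z i - z j) = ((k : ℝ) - 1) := by
    rw [Finset.sum_congr rfl fun j hj => hξ j (Finset.ne_of_mem_erase hj)]
    simp [Finset.card_erase_of_mem]
    rw [Nat.cast_sub hk]; simp
  have h2 : ∑ j, inner ℝ ξ (z i - z j) = ((k : ℝ) - 1) := by
    rw [← Finset.add_sum_erase _ _ (Finset.mem_univ i), h1]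
    simp
  have h3 : ∑ j, inner ℝ ξ (z i - z j) = k * inner ℝ ξ (z i) := by
    simp_rw [inner_sub_right]
    have h4 : ∑ j, inner ℝ ξ (z j) = (0 : ℝ) := by
      rw [← inner_sum, hsum, inner_zero_right]
    rw [Finset.sum_sub_distrib, h4]
    simp
  rw [real_inner_comm, eq_div_iff hk'.ne']
  linarith

/-! ### The gap function of a cell -/

/-- The gap `min_{j ≠ i} ⟨x, z_i - z_j⟩`. -/
noncomputable def gap {k : ℕ} (z : Fin k → E) (i : Fin k) (hne : (Finset.univ.erase i).Nonempty)
    (x : E) : ℝ :=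
  (Finset.univ.erase i).inf' hne fun j => inner ℝ x (z i - z j)

variable {k : ℕ} {z : Fin k → E} {i : Fin k} {hne : (Finset.univ.erase i).Nonempty}

theorem continuous_gap : Continuous (gap z i hne) := by
  unfold gap
  exact Continuous.finset_inf'_apply hne fun j _ => by fun_prop

theorem concave_gap : ConcaveOn ℝ univ (gap z i hne) := by
  refine ⟨convex_univ, fun x _ y _ a b ha hb hab => ?_⟩
  simp only [smul_eq_mul]
  unfold gap
  refine Finset.le_inf' hne _ fun j hj => ?_
  rw [inner_add_left, inner_smul_left, inner_smul_left]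
  have h1 := Finset.inf'_le (fun j => inner ℝ x (z i - z j)) hj
  have h2 := Finset.inf'_le (fun j => inner ℝ y (z i - z j)) hj
  simp only [conj_trivial]
  gcongr

theorem gap_add_smul {ξ : E} (hξ : ∀ j, j ≠ i → inner ℝ ξ (z i - z j) = (1 : ℝ)) (x : E) (t : ℝ) :
    gap z i hne (x + t • ξ) = gap z i hne x + t := by
  unfold gap
  have h1 : ∀ j ∈ Finset.univ.erase i, inner ℝ (x + t • ξ) (z i - z j) =
      inner ℝ x (z i - z j) + t := by
    intro j hj
    rw [inner_add_left, inner_smul_left, hξ j (Finset.ne_of_mem_erase hj)]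
    simp
  apply le_antisymm
  · rw [← sub_le_iff_le_add]
    refine Finset.le_inf' hne _ fun j hj => ?_
    have h2 := Finset.inf'_le (fun j => inner ℝ (x + t • ξ) (z i - z j)) hj
    rw [h1 j hj] at h2
    linarith
  · refine Finset.le_inf' hne _ fun j hj => ?_
    rw [h1 j hj]
    have h2 := Finset.inf'_le (fun j => inner ℝ x (z i - z j)) hj
    linarith

theorem gap_nonneg_iff (x : E) :
    0 ≤ gap z i hne x ↔ ∀ j, inner ℝ x (z j) ≤ inner ℝ x (z i) := by
  unfold gap
  rw [Finset.le_inf'_iff]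
  constructor
  · intro h j
    rcases eq_or_ne j i with rfl | hj
    · exact le_rfl
    · have := h j (Finset.mem_erase.mpr ⟨hj, Finset.mem_univ j⟩)
      rw [inner_sub_right] at this
      linarith
  · intro h j _
    rw [inner_sub_right]
    linarith [h j]

theorem abs_gap_le (x : E) : |gap z i hne x| ≤ ∑ j, ‖z i - z j‖ * ‖x‖ := by
  unfold gap
  obtain ⟨j, hj, hj2⟩ := Finset.exists_mem_eq_inf' hne (fun j => inner ℝ x (z i - z j))
  rw [hj2]
  calc |inner ℝ x (z i - z j)| ≤ ‖x‖ * ‖z i - z j‖ := abs_real_inner_le_norm _ _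
    _ = ‖z i - z j‖ * ‖x‖ := mul_comm _ _
    _ ≤ ∑ j, ‖z i - z j‖ * ‖x‖ := Finset.single_le_sum
        (f := fun j => ‖z i - z j‖ * ‖x‖) (fun j _ => by positivity) (Finset.mem_univ j)

variable [FiniteDimensional ℝ E] [MeasurableSpace E] [BorelSpace E]

theorem integrable_gap : Integrable (gap z i hne) (stdGaussian E) := by
  have h1 : Integrable (fun x : E => x) (stdGaussian E) := IsGaussian.integrable_id
  have h2 : Integrable (fun x : E => ∑ j, ‖z i - z j‖ * ‖x‖) (stdGaussian E) :=
    integrable_finsetSum _ fun j _ => h1.norm.const_mul _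
  refine h2.mono' continuous_gap.aestronglyMeasurable (Eventually.of_forall fun x => ?_)
  rw [Real.norm_eq_abs]
  exact abs_gap_le x

/-- The gain bound for a cell of an extremal configuration. -/
theorem cell_gain (hsum : ∑ j, z j = 0)
    (hobt : ∀ i j, i ≠ j → inner ℝ (z i) (z j) < (0 : ℝ))
    (hz : z i = ∫ x in {x | ∀ j, inner ℝ x (z j) ≤ inner ℝ x (z i)}, x ∂(stdGaussian E)) :
    ∃ a α : ℝ, a = (stdGaussian E).real {x | ∀ j, inner ℝ x (z j) ≤ inner ℝ x (z i)} ∧
      Phi α = a ∧ 
      ∫ x, max (gap z i hne x) 0 ∂(stdGaussian E) ≤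
        (k : ℝ) / (k - 1) * (gd α * (α * a + gd α)) := by
  obtain ⟨ξ, hξ⟩ := exists_xi hsum hobt i
  obtain ⟨hnull, hP, hder⟩ := unit_speed (U := gap z i hne) continuous_gap
    (fun x t => gap_add_smul hξ x t)
  have hset : {x | ∀ j, inner ℝ x (z j) ≤ inner ℝ x (z i)} = {x | 0 ≤ gap z i hne x} := by
    ext x; exact (gap_nonneg_iff x).symm
  have hae : ({x | 0 < gap z i hne x} : Set E) =ᵐ[stdGaussian E] {x | 0 ≤ gap z i hne x} := by
    have h1 : ∀ᵐ x ∂(stdGaussian E), gap z i hne x ≠ 0 := by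
      rw [ae_iff]; simpa using hnull 0
    filter_upwards [h1] with x hx
    refine propext ⟨fun h => le_of_lt h, fun h => lt_of_le_of_ne h (Ne.symm hx)⟩
  have hk1 : 1 < k := by
    obtain ⟨j, hj⟩ := hne
    have h1 : j ≠ i := Finset.ne_of_mem_erase hj
    have h2 := j.2
    have h3 := i.2
    by_contra h4
    apply h1
    ext
    omega
  have hkr : (1 : ℝ) < k := by exact_mod_cast hk1
  have hρ : ∫ x in {x | 0 < gap z i hne x}, inner ℝ x ξ ∂(stdGaussian E) = ((k : ℝ) - 1) / k := by
    have h1 : Integrable (fun x : E => x) (stdGaussian E) := IsGaussian.integrable_id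
    have h2 := integral_inner (𝕜 := ℝ) (h1.integrableOn (s := {x | 0 ≤ gap z i hne x})) ξ
    rw [← hset, ← hz, real_inner_comm, inner_xi hsum hξ, hset, ← setIntegral_congr_set hae] at h2
    rw [← h2]
    congr 1
    ext x
    exact real_inner_comm _ _
  have hgain := gain_bound (U := gap z i hne) concave_gap hnull integrable_gap
    (fun t _ => hP t) (ρ := ((k : ℝ) - 1) / k) (by
      apply div_pos <;> linarith) (by
      have := hder 0
      rw [hρ] at this
      exact this.hasDerivWithinAt)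
  have ha : (stdGaussian E).real {x | 0 < gap z i hne x} =
      (stdGaussian E).real {x | ∀ j, inner ℝ x (z j) ≤ inner ℝ x (z i)} := by
    rw [hset]; exact measureReal_congr hae
  refine ⟨(stdGaussian E).real {x | 0 < gap z i hne x},
    PhiInv ((stdGaussian E).real {x | 0 < gap z i hne x}), ha, Phi_PhiInv (hP 0), ?_⟩
  refine hgain.trans (le_of_eq ?_)
  have : (k : ℝ) - 1 ≠ 0 := by linarith
  have : (k : ℝ) ≠ 0 := by linarith
  field_simp

omit [FiniteDimensional ℝ E] [MeasurableSpace E] [BorelSpace E] in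
theorem gap_eq (x : E) :
    gap z i hne x = inner ℝ x (z i) - (Finset.univ.erase i).sup' hne (fun j => inner ℝ x (z j)) := by
  unfold gap
  apply le_antisymm
  · rw [le_sub_comm]
    refine Finset.sup'_le hne _ fun j hj => ?_
    have h2 := Finset.inf'_le (fun j => inner ℝ x (z i - z j)) hj
    rw [inner_sub_right] at h2
    linarith
  · refine Finset.le_inf' hne _ fun j hj => ?_
    have h2 := Finset.le_sup' (fun j => inner ℝ x (z j)) hj
    rw [inner_sub_right]
    linarith

omit [FiniteDimensional ℝ E] [MeasurableSpace E] [BorelSpace E] in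
theorem sup_eq_add_gap (hne' : (Finset.univ : Finset (Fin k)).Nonempty) (x : E) :
    Finset.univ.sup' hne' (fun j => inner ℝ x (z j)) =
      (Finset.univ.erase i).sup' hne (fun j => inner ℝ x (z j)) + max (gap z i hne x) 0 := by
  rw [gap_eq]
  set S := (Finset.univ.erase i).sup' hne (fun j => inner ℝ x (z j)) with hS
  have h1 : Finset.univ.sup' hne' (fun j => inner ℝ x (z j)) = max S (inner ℝ x (z i)) := by
    apply le_antisymm
    · refine Finset.sup'_le hne' _ fun j _ => ?_
      rcases eq_or_ne j i with rfl | hj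
      · exact le_max_right _ _
      · exact (Finset.le_sup' (fun j => inner ℝ x (z j))
          (Finset.mem_erase.mpr ⟨hj, Finset.mem_univ j⟩)).trans (le_max_left _ _)
    · refine max_le (Finset.sup'_le hne _ fun j _ => ?_) ?_
      · exact Finset.le_sup' (fun j => inner ℝ x (z j)) (Finset.mem_univ j)
      · exact Finset.le_sup' (fun j => inner ℝ x (z j)) (Finset.mem_univ i)
  rw [h1]
  rcases le_total (inner ℝ x (z i)) S with h | h
  · rw [max_eq_left h, max_eq_right (by linarith)]; ring
  · rw [max_eq_right h, max_eq_left (by linarith)]; ring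

theorem integrable_sup (s : Finset (Fin k)) (hs : s.Nonempty) (y : Fin k → E) :
    Integrable (fun x => s.sup' hs (fun j => inner ℝ x (y j))) (stdGaussian E) := by
  have h1 : Integrable (fun x : E => x) (stdGaussian E) := IsGaussian.integrable_id
  have h2 : Integrable (fun x : E => ∑ j, ‖y j‖ * ‖x‖) (stdGaussian E) :=
    integrable_finsetSum _ fun j _ => h1.norm.const_mul _
  have hc : Continuous (fun x => s.sup' hs (fun j => inner ℝ x (y j))) :=
    Continuous.finset_sup'_apply hs fun j _ => by fun_prop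
  refine h2.mono' hc.aestronglyMeasurable (Eventually.of_forall fun x => ?_)
  rw [Real.norm_eq_abs]
  obtain ⟨j, hj, hj2⟩ := Finset.exists_mem_eq_sup' hs (fun j => inner ℝ x (y j))
  rw [hj2]
  calc |inner ℝ x (y j)| ≤ ‖x‖ * ‖y j‖ := abs_real_inner_le_norm _ _
    _ = ‖y j‖ * ‖x‖ := mul_comm _ _
    _ ≤ ∑ j, ‖y j‖ * ‖x‖ := Finset.single_le_sum
        (f := fun j => ‖y j‖ * ‖x‖) (fun j _ => by positivity) (Finset.mem_univ j)

/-- The deletion inequality: deleting the cell `i` and recentring. -/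
theorem deletion {F c : ℝ} (hsum : ∑ j, z j = 0) (hF : F = ∑ j, ‖z j‖ ^ 2)
    (hne' : (Finset.univ : Finset (Fin k)).Nonempty)
    (hFmax : ∫ x, Finset.univ.sup' hne' (fun j => inner ℝ x (z j)) ∂(stdGaussian E) = F)
    (hdel : ∀ y : Fin k → E,
      ∫ x, (Finset.univ.erase i).sup' hne (fun j => inner ℝ x (y j)) ∂(stdGaussian E) ≤
        √c * √(∑ j ∈ Finset.univ.erase i, ‖y j‖ ^ 2)) :
    F - ∫ x, max (gap z i hne x) 0 ∂(stdGaussian E) ≤
      √c * √(F - (k : ℝ) / (k - 1) * ‖z i‖ ^ 2) := by
  have hk1 : 1 < k := by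
    obtain ⟨j, hj⟩ := hne
    have h1 : j ≠ i := Finset.ne_of_mem_erase hj
    have h2 := j.2
    have h3 := i.2
    by_contra h4
    apply h1
    ext
    omega
  have hkr : (1 : ℝ) < k := by exact_mod_cast hk1
  have hk0 : (k : ℝ) - 1 ≠ 0 := by linarith
  set m : E := (-((k : ℝ) - 1)⁻¹) • z i with hm
  have h1 := hdel (fun j => z j - m)
  have hshift : ∀ x : E, (Finset.univ.erase i).sup' hne (fun j => inner ℝ x (z j - m)) =
      (Finset.univ.erase i).sup' hne (fun j => inner ℝ x (z j)) - inner ℝ x m := by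
    intro x
    apply le_antisymm
    · refine Finset.sup'_le hne _ fun j hj => ?_
      have := Finset.le_sup' (fun j => inner ℝ x (z j)) hj
      rw [inner_sub_right]
      linarith
    · rw [sub_le_iff_le_add]
      refine Finset.sup'_le hne _ fun j hj => ?_
      have := Finset.le_sup' (fun j => inner ℝ x (z j - m)) hj
      rw [inner_sub_right] at this
      linarith
  have hid : Integrable (fun x : E => x) (stdGaussian E) := IsGaussian.integrable_id
  have hm0 : ∫ x, inner ℝ x m ∂(stdGaussian E) = 0 := by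
    have h2 := integral_inner (𝕜 := ℝ) hid m
    rw [integral_id_stdGaussian, inner_zero_right] at h2
    rw [← h2]
    congr 1
    ext x
    exact real_inner_comm _ _
  have hI1 := integrable_sup (E := E) (Finset.univ.erase i) hne z
  have hgapI : Integrable (fun x => max (gap z i hne x) 0) (stdGaussian E) :=
    integrable_gap.sup (integrable_zero _ _ _)
  have hleft : ∫ x, (Finset.univ.erase i).sup' hne (fun j => inner ℝ x (z j - m))
      ∂(stdGaussian E) = F - ∫ x, max (gap z i hne x) 0 ∂(stdGaussian E) := by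
    simp_rw [hshift]
    rw [integral_sub hI1 (hid.inner_const m), hm0, sub_zero]
    have h3 : F = ∫ x, ((Finset.univ.erase i).sup' hne (fun j => inner ℝ x (z j)) +
        max (gap z i hne x) 0) ∂(stdGaussian E) := by
      rw [← hFmax]
      congr 1
      ext x
      exact sup_eq_add_gap hne' x
    rw [integral_add hI1 hgapI] at h3
    linarith
  have hright : ∑ j ∈ Finset.univ.erase i, ‖z j - m‖ ^ 2 = F - (k : ℝ) / (k - 1) * ‖z i‖ ^ 2 := by
    have h4 : ∀ j, ‖z j - m‖ ^ 2 = ‖z j‖ ^ 2 - 2 * inner ℝ (z j) m + ‖m‖ ^ 2 := fun j =>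
      norm_sub_sq_real _ _
    have h5 : ∑ j, ‖z j - m‖ ^ 2 = F + k * ‖m‖ ^ 2 := by
      simp_rw [h4]
      rw [Finset.sum_add_distrib, Finset.sum_sub_distrib, ← Finset.mul_sum, ← sum_inner, hsum,
        inner_zero_left, ← hF]
      simp
    have h6 : ‖m‖ ^ 2 = (((k : ℝ) - 1)⁻¹) ^ 2 * ‖z i‖ ^ 2 := by
      rw [hm, norm_smul, norm_neg, mul_pow, Real.norm_eq_abs, sq_abs]
    have h7 : ‖z i - m‖ ^ 2 = (1 + ((k : ℝ) - 1)⁻¹) ^ 2 * ‖z i‖ ^ 2 := by
      have : z i - m = (1 + ((k : ℝ) - 1)⁻¹) • z i := by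
        rw [hm]; module
      rw [this, norm_smul, mul_pow, Real.norm_eq_abs, sq_abs]
    have h8 := Finset.add_sum_erase Finset.univ (fun j => ‖z j - m‖ ^ 2) (Finset.mem_univ i)
    rw [h5, h6, h7] at h8
    have h9 : ∑ j ∈ Finset.univ.erase i, ‖z j - m‖ ^ 2 =
        F + k * ((((k : ℝ) - 1)⁻¹) ^ 2 * ‖z i‖ ^ 2) - (1 + ((k : ℝ) - 1)⁻¹) ^ 2 * ‖z i‖ ^ 2 := by
      linarith
    rw [h9]
    field_simp
    ring
  rw [hleft, hright] at h1
  exact h1

end Vale.Agent.P226E
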