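import Vale.Agent.Lib.P226E.Ehrhard1

open MeasureTheory ProbabilityTheory Real Set Filter Topology

namespace Vale.Agent.P226E

/-- The standard Gaussian measure on `Fin d → ℝ`. -/
noncomputable abbrev gaussPi (d : ℕ) : Measure (Fin d → ℝ) := Measure.pi fun _ => gaussianReal 0 1

/-- A concave function composed with an affine map from a finite dimensional space is
continuous. -/
theorem continuous_concave_comp {E V : Type*} [AddCommGroup E] [Module ℝ E]
    [NormedAddCommGroup V] [NormedSpace ℝ V] [FiniteDimensional ℝ V] {Ψ : E → ℝ}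
    (hΨ : ConcaveOn ℝ univ Ψ) (y : E) (L : V →ₗ[ℝ] E) : Continuous (fun v => Ψ (y + L v)) := by
  have h : ConcaveOn ℝ univ (fun v => Ψ (y + L v)) := by
    refine ⟨convex_univ, fun p _ q _ a b ha hb hab => ?_⟩
    have h1 := hΨ.2 (mem_univ (y + L p)) (mem_univ (y + L q)) ha hb hab
    have h2 : a • (y + L p) + b • (y + L q) = y + L (a • p + b • q) := by
      rw [map_add, map_smul, map_smul, smul_add, smul_add]
      have h3 : b = 1 - a := by linarith
      subst h3
      module
    rw [h2] at h1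
    exact h1
  exact continuousOn_univ.mp (h.continuousOn isOpen_univ)

/-- Ehrhard's inequality in functional form, for a finite product of standard Gaussians:
averaging a concave function over finitely many Gaussian directions, in the `Φ` scale, gives a
concave function. -/
theorem ehrhard_pi {E : Type*} [AddCommGroup E] [Module ℝ E] (d : ℕ) :
    ∀ {Ψ : E → ℝ}, ConcaveOn ℝ univ Ψ → ∀ w : Fin d → E,
      ConcaveOn ℝ univ (fun y => PhiInv (∫ x, Phi (Ψ (y + ∑ i, x i • w i)) ∂(gaussPi d))) := by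
  induction d with
  | zero =>
    intro Ψ hΨ w
    simpa using hΨ
  | succ d ih =>
    intro Ψ hΨ w
    have h1 := ehrhard_dir hΨ (w 0)
    have h2 := ih h1 (fun i => w i.succ)
    convert h2 using 2 with y
    congr 1
    have hmp := measurePreserving_piFinSuccAbove (n := d)
      (fun _ : Fin (d + 1) => gaussianReal 0 1) 0
    have h3 : ∫ x, Phi (Ψ (y + ∑ i, x i • w i)) ∂(gaussPi (d + 1)) =
        ∫ p : ℝ × (Fin d → ℝ), Phi (Ψ (y + (p.1 • w 0 + ∑ i, p.2 i • w i.succ)))
          ∂((gaussianReal 0 1).prod (gaussPi d)) := by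
      rw [← hmp.integral_comp (MeasurableEquiv.measurableEmbedding _)]
      congr 1
      ext x
      rw [Fin.sum_univ_succ]
      rfl
    rw [h3, integral_prod_symm]
    · congr 1
      ext x'
      have hmeas : AEStronglyMeasurable (fun s : ℝ => Ψ (y + ∑ i, x' i • w i.succ + s • w 0))
          (gaussianReal 0 1) :=
        (continuous_concave_comp hΨ (y + ∑ i, x' i • w i.succ)
          (LinearMap.toSpanSingleton ℝ E (w 0))).aestronglyMeasurable
      rw [Phi_PhiInv (integral_Phi_mem hmeas)]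
      congr 1
      ext s
      congr 2
      abel
    · have hc : Continuous (fun p : ℝ × (Fin d → ℝ) =>
          Ψ (y + (p.1 • w 0 + ∑ i, p.2 i • w i.succ))) := by
        let L : (ℝ × (Fin d → ℝ)) →ₗ[ℝ] E :=
          (LinearMap.toSpanSingleton ℝ E (w 0)).comp (LinearMap.fst ℝ ℝ (Fin d → ℝ)) +
          (Fintype.linearCombination ℝ (fun i : Fin d => w i.succ)).comp
            (LinearMap.snd ℝ ℝ (Fin d → ℝ))
        exact continuous_concave_comp hΨ y L
      exact Integrable.of_bound (continuous_Phi.comp hc).aestronglyMeasurable 1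
        (Eventually.of_forall fun s => abs_Phi_le _)

/-- The step function with value `1/2` at zero. -/
noncomputable def step (r : ℝ) : ℝ := if 0 < r then 1 else if r = 0 then 1 / 2 else 0

theorem Phi_zero : Phi 0 = 1 / 2 := by
  have := Phi_neg 0
  rw [neg_zero] at this
  linarith

theorem tendsto_Phi_step (r : ℝ) : Tendsto (fun N : ℝ => Phi (N * r)) atTop (𝓝 (step r)) := by
  unfold step
  split_ifs with h1 h2
  · exact tendsto_Phi_atTop.comp (tendsto_id.atTop_mul_const h1)
  · subst h2
    simp only [mul_zero]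
    rw [Phi_zero]
    exact tendsto_const_nhds
  · have h3 : r < 0 := lt_of_le_of_ne (not_lt.mp h1) h2
    exact tendsto_Phi_atBot.comp (tendsto_id.atTop_mul_const_of_neg h3)

/-- Ehrhard's inequality for the superlevel sets of a concave function. -/
theorem ehrhard_step {E : Type*} [AddCommGroup E] [Module ℝ E] {d : ℕ} {Q : E → ℝ}
    (hQ : ConcaveOn ℝ univ Q) (w : Fin d → E) {y1 y2 : E} {μ l : ℝ} (hμ : 0 ≤ μ) (hl : 0 ≤ l)
    (hμl : μ + l = 1)
    (h1 : ∫ x, step (Q (y1 + ∑ i, x i • w i)) ∂(gaussPi d) ∈ Ioo (0 : ℝ) 1)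
    (h2 : ∫ x, step (Q (y2 + ∑ i, x i • w i)) ∂(gaussPi d) ∈ Ioo (0 : ℝ) 1) :
    Phi (μ * PhiInv (∫ x, step (Q (y1 + ∑ i, x i • w i)) ∂(gaussPi d)) +
      l * PhiInv (∫ x, step (Q (y2 + ∑ i, x i • w i)) ∂(gaussPi d))) ≤
    ∫ x, step (Q (μ • y1 + l • y2 + ∑ i, x i • w i)) ∂(gaussPi d) := by
  have hcont : ∀ y, Continuous (fun x : Fin d → ℝ => Q (y + ∑ i, x i • w i)) := fun y =>
    continuous_concave_comp hQ y (Fintype.linearCombination ℝ w)
  have hlim : ∀ y, Tendsto (fun N : ℝ => ∫ x, Phi (N * Q (y + ∑ i, x i • w i)) ∂(gaussPi d)) atTop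
      (𝓝 (∫ x, step (Q (y + ∑ i, x i • w i)) ∂(gaussPi d))) := by
    intro y
    refine tendsto_integral_filter_of_dominated_convergence (fun _ => 1)
      (Eventually.of_forall fun b => ?_) (Eventually.of_forall fun b => ?_) (integrable_const 1)
      (Eventually.of_forall fun s => ?_)
    · exact (continuous_Phi.comp (continuous_const.mul (hcont y))).aestronglyMeasurable
    · exact Eventually.of_forall fun s => abs_Phi_le _
    · exact tendsto_Phi_step _
  have hN : ∀ N : ℝ, 0 ≤ N →
      Phi (μ * PhiInv (∫ x, Phi (N * Q (y1 + ∑ i, x i • w i)) ∂(gaussPi d)) +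
        l * PhiInv (∫ x, Phi (N * Q (y2 + ∑ i, x i • w i)) ∂(gaussPi d))) ≤
      ∫ x, Phi (N * Q (μ • y1 + l • y2 + ∑ i, x i • w i)) ∂(gaussPi d) := by
    intro N hN
    have hc : ConcaveOn ℝ univ (fun y => N * Q y) := hQ.smul hN
    have h3 := (ehrhard_pi d hc w).2 (mem_univ y1) (mem_univ y2) hμ hl hμl
    simp only [smul_eq_mul] at h3
    have h4 : ∫ x, Phi (N * Q (μ • y1 + l • y2 + ∑ i, x i • w i)) ∂(gaussPi d) ∈ Ioo (0 : ℝ) 1 :=
      integral_Phi_mem (continuous_const.mul (hcont _)).aestronglyMeasurable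
    rw [← Phi_PhiInv h4]
    exact strictMono_Phi.monotone h3
  refine le_of_tendsto_of_tendsto ?_ (hlim (μ • y1 + l • y2)) (eventually_ge_atTop 0 |>.mono hN)
  refine (continuous_Phi.tendsto _).comp ?_
  exact (((PhiInv_continuousAt h1).tendsto.comp (hlim y1)).const_mul μ).add
    (((PhiInv_continuousAt h2).tendsto.comp (hlim y2)).const_mul l)

/-- Ehrhard's inequality for one concave function `U` on Gaussian space: `t ↦ Φ⁻¹(P(U > t))` is
concave, where `P(U = t) = 0` is assumed for every `t`. -/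
theorem ehrhard_level {d : ℕ} {U : (Fin d → ℝ) → ℝ} (hU : ConcaveOn ℝ univ U)
    (h0 : ∀ t, gaussPi d {x | U x = t} = 0) {t1 t2 μ l : ℝ} (hμ : 0 ≤ μ) (hl : 0 ≤ l)
    (hμl : μ + l = 1)
    (h1 : (gaussPi d).real {x | t1 < U x} ∈ Ioo (0 : ℝ) 1)
    (h2 : (gaussPi d).real {x | t2 < U x} ∈ Ioo (0 : ℝ) 1) :
    Phi (μ * PhiInv ((gaussPi d).real {x | t1 < U x}) +
      l * PhiInv ((gaussPi d).real {x | t2 < U x})) ≤
    (gaussPi d).real {x | μ * t1 + l * t2 < U x} := by
  have hUc : Continuous U := continuousOn_univ.mp (hU.continuousOn isOpen_univ)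
  set Q : ℝ × (Fin d → ℝ) → ℝ := fun p => U p.2 - p.1 with hQdef
  have hQ : ConcaveOn ℝ univ Q := by
    refine ⟨convex_univ, fun p _ q _ a b ha hb hab => ?_⟩
    have h3 := conc_ineq hU p.2 q.2 ha hb hab
    simp only [hQdef, smul_eq_mul, Prod.fst_add, Prod.snd_add, Prod.smul_fst, Prod.smul_snd]
    nlinarith
  set w : Fin d → ℝ × (Fin d → ℝ) := fun i => (0, Pi.single i 1) with hw
  have hsum : ∀ (t : ℝ) (x : Fin d → ℝ), ((t, 0) : ℝ × (Fin d → ℝ)) + ∑ i, x i • w i = (t, x) := by
    intro t x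
    have h3 : ∑ i, x i • w i = (0, x) := by
      ext j
      · rw [Prod.fst_sum]; simp [hw]
      · rw [Prod.snd_sum]; simp [hw, Finset.sum_apply, Pi.single_apply]
    rw [h3]; simp
  have hm : ∀ t : ℝ, ∫ x, step (Q (((t, 0) : ℝ × (Fin d → ℝ)) + ∑ i, x i • w i)) ∂(gaussPi d) =
      (gaussPi d).real {x | t < U x} := by
    intro t
    simp_rw [hsum]
    have h3 : ∀ᵐ x ∂(gaussPi d), step (Q (t, x)) = ({x | t < U x} : Set (Fin d → ℝ)).indicator 1 x := by
      have h4 : ∀ᵐ x ∂(gaussPi d), U x ≠ t := by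
        rw [ae_iff]; simpa using h0 t
      filter_upwards [h4] with x hx
      simp only [hQdef, step]
      by_cases h5 : t < U x
      · rw [if_pos (by linarith)]
        simp [Set.indicator, h5]
      · rw [if_neg (by linarith), if_neg (by intro h6; exact hx (by linarith))]
        simp [Set.indicator, h5]
    rw [integral_congr_ae h3, integral_indicator_one]
    exact measurableSet_lt measurable_const hUc.measurable
  have key := ehrhard_step hQ w (y1 := (t1, 0)) (y2 := (t2, 0)) hμ hl hμl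
    (by rw [hm]; exact h1) (by rw [hm]; exact h2)
  have h3 : μ • ((t1, 0) : ℝ × (Fin d → ℝ)) + l • ((t2, 0) : ℝ × (Fin d → ℝ)) =
      (μ * t1 + l * t2, 0) := by ext <;> simp
  rw [h3, hm, hm, hm] at key
  exact key

/-- `ehrhard_level` for the standard Gaussian measure of a Euclidean space. -/
theorem ehrhard_level_std {E : Type*} [NormedAddCommGroup E] [InnerProductSpace ℝ E]
    [FiniteDimensional ℝ E] [MeasurableSpace E] [BorelSpace E] {U : E → ℝ}
    (hU : ConcaveOn ℝ univ U) (h0 : ∀ t, stdGaussian E {x | U x = t} = 0)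
    {t1 t2 μ l : ℝ} (hμ : 0 ≤ μ) (hl : 0 ≤ l) (hμl : μ + l = 1)
    (h1 : (stdGaussian E).real {x | t1 < U x} ∈ Ioo (0 : ℝ) 1)
    (h2 : (stdGaussian E).real {x | t2 < U x} ∈ Ioo (0 : ℝ) 1) :
    Phi (μ * PhiInv ((stdGaussian E).real {x | t1 < U x}) +
      l * PhiInv ((stdGaussian E).real {x | t2 < U x})) ≤
    (stdGaussian E).real {x | μ * t1 + l * t2 < U x} := by
  have hUc : Continuous U := continuousOn_univ.mp (hU.continuousOn isOpen_univ)
  set b := stdOrthonormalBasis ℝ E with hb
  set T : (Fin (Module.finrank ℝ E) → ℝ) → E := fun x => ∑ i, x i • b i with hT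
  have hTc : Continuous T := by fun_prop
  have hstd : stdGaussian E = (gaussPi (Module.finrank ℝ E)).map T := rfl
  have hU' : ConcaveOn ℝ univ (fun x => U (T x)) := by
    refine ⟨convex_univ, fun p _ q _ a c ha hc hac => ?_⟩
    have h3 := conc_ineq hU (T p) (T q) ha hc hac
    have h4 : a • T p + c • T q = T (a • p + c • q) := by
      simp only [hT, Finset.smul_sum, ← Finset.sum_add_distrib, Pi.add_apply, Pi.smul_apply,
        smul_eq_mul, add_smul, mul_smul]
    rw [h4] at h3
    simpa [smul_eq_mul] using h3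
  have hm : ∀ t, (stdGaussian E).real {x | t < U x} =
      (gaussPi (Module.finrank ℝ E)).real {x | t < U (T x)} := by
    intro t
    rw [hstd, measureReal_def, measureReal_def, Measure.map_apply hTc.measurable
      (measurableSet_lt measurable_const hUc.measurable)]
    rfl
  have h0' : ∀ t, gaussPi (Module.finrank ℝ E) {x | U (T x) = t} = 0 := by
    intro t
    have := h0 t
    rw [hstd, Measure.map_apply hTc.measurable
      (measurableSet_eq_fun hUc.measurable measurable_const)] at this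
    exact this
  rw [hm] at h1 h2
  rw [hm, hm, hm]
  exact ehrhard_level hU' h0' hμ hl hμl h1 h2

end Vale.Agent.P226E
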