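import Vale.Agent.Lib.P226E.Flow

open MeasureTheory ProbabilityTheory Real Set Filter Topology

namespace Vale.Agent.P226E

/-- Uniform behaviour at infinity of the flow of a function with a limit at infinity. -/
theorem flow_infty {f : ℝ → ℝ} (hf : Continuous f) {l : ℝ}
    (hl : Tendsto f (comap (fun x : ℝ => |x|) atTop) (𝓝 l)) {η : ℝ} (hη : 0 < η) :
    ∃ R : ℝ, ∀ τ ∈ Icc (0 : ℝ) 1, ∀ x : ℝ, R ≤ |x| → flow f τ x < l + η := by
  have h1 : Tendsto (fun v => Phi (f v)) (comap (fun x : ℝ => |x|) atTop) (𝓝 (Phi l)) :=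
    (continuous_Phi.tendsto l).comp hl
  have h2 := tendsto_heat (continuous_Phi.comp hf) (fun v => abs_Phi_le _) h1
  have h3 : Tendsto (fun p : ℝ × ℝ => flow f p.1 p.2)
      (𝓟 (Icc 0 1) ×ˢ comap (fun x : ℝ => |x|) atTop) (𝓝 l) := by
    have := (PhiInv_continuousAt (Phi_mem l)).tendsto.comp h2
    rwa [PhiInv_Phi] at this
  have h4 := h3.eventually (gt_mem_nhds (show l < l + η by linarith))
  rw [eventually_prod_iff] at h4
  obtain ⟨pa, hpa, pb, hpb, hab⟩ := h4
  rw [eventually_principal] at hpa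
  rw [eventually_comap] at hpb
  obtain ⟨R, hR⟩ := eventually_atTop.mp hpb
  exact ⟨R, fun τ hτ x hx => hab (hpa τ hτ) (hR |x| hx x rfl)⟩

/-- One dimensional functional Ehrhard inequality, for functions with limits at infinity. -/
theorem ehrhard_basic {f g h : ℝ → ℝ} (hf : Continuous f) (hg : Continuous g) (hh : Continuous h)
    {a b : ℝ} (hfb : ∀ v, f v ∈ Icc a b) (hgb : ∀ v, g v ∈ Icc a b) (hhb : ∀ v, h v ∈ Icc a b)
    {fi gi : ℝ} (hfi : Tendsto f (comap (fun x : ℝ => |x|) atTop) (𝓝 fi))
    (hgi : Tendsto g (comap (fun x : ℝ => |x|) atTop) (𝓝 gi))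
    {μ l : ℝ} (hμ : 0 < μ) (hl : 0 < l) (hμl : μ + l = 1)
    (H : ∀ x y, μ * f x + l * g y ≤ h (μ * x + l * y))
    (Hf : ∀ z y, μ * fi + l * g y ≤ h z) (Hg : ∀ z x, μ * f x + l * gi ≤ h z) :
    μ * PhiInv (∫ s, Phi (f s) ∂(gaussianReal 0 1)) + l * PhiInv (∫ s, Phi (g s) ∂(gaussianReal 0 1))
      ≤ PhiInv (∫ s, Phi (h s) ∂(gaussianReal 0 1)) := by
  have key : 0 ≤ flow h 1 (μ * 0 + l * 0) - μ * flow f 1 0 - l * flow g 1 0 := by
    refine max_principle (isFlow_flow hf hfb) (isFlow_flow hg hgb) (isFlow_flow hh hhb) hμ hl hμl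
      (fun x y => ?_) (fun η hη => ?_) 0 0
    · rw [flow_zero, flow_zero, flow_zero]
      linarith [H x y]
    · obtain ⟨R1, hR1⟩ := flow_infty hf hfi hη
      obtain ⟨R2, hR2⟩ := flow_infty hg hgi hη
      -- bounds for sup of g and f, inf of h
      set Sg : ℝ := ⨆ v, g v with hSg
      set Sf : ℝ := ⨆ v, f v with hSf
      set Ih : ℝ := ⨅ v, h v with hIh
      have bg : BddAbove (range g) := ⟨b, by rintro _ ⟨v, rfl⟩; exact (hgb v).2⟩
      have bf : BddAbove (range f) := ⟨b, by rintro _ ⟨v, rfl⟩; exact (hfb v).2⟩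
      have bh : BddBelow (range h) := ⟨a, by rintro _ ⟨v, rfl⟩; exact (hhb v).1⟩
      have e1 : μ * fi + l * Sg ≤ Ih := by
        refine le_ciInf fun z => ?_
        have : Sg ≤ (h z - μ * fi) / l := ciSup_le fun y => by
          rw [le_div_iff₀ hl]; linarith [Hf z y]
        rw [le_div_iff₀ hl] at this
        linarith
      have e2 : μ * Sf + l * gi ≤ Ih := by
        refine le_ciInf fun z => ?_
        have : Sf ≤ (h z - l * gi) / μ := ciSup_le fun x => by
          rw [le_div_iff₀ hμ]; linarith [Hg z x]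
        rw [le_div_iff₀ hμ] at this
        linarith
      have m1 : ∀ τ x, flow f τ x ≤ Sf := fun τ x =>
        (flow_mem hf (a := a) (b := Sf) (fun v => ⟨(hfb v).1, le_ciSup bf v⟩) τ x).2
      have m2 : ∀ τ x, flow g τ x ≤ Sg := fun τ x =>
        (flow_mem hg (a := a) (b := Sg) (fun v => ⟨(hgb v).1, le_ciSup bg v⟩) τ x).2
      have m3 : ∀ τ x, Ih ≤ flow h τ x := fun τ x =>
        (flow_mem hh (a := Ih) (b := b) (fun v => ⟨ciInf_le bh v, (hhb v).2⟩) τ x).1
      refine ⟨max R1 R2, fun τ hτ x y hxy => ?_⟩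
      have hμ1 : μ ≤ 1 := by linarith
      have hl1 : l ≤ 1 := by linarith
      rcases hxy with hx | hy
      · have k1 := hR1 τ hτ x ((le_max_left _ _).trans hx)
        have k2 := m2 τ y
        have k3 := m3 τ (μ * x + l * y)
        nlinarith
      · have k1 := hR2 τ hτ y ((le_max_right _ _).trans hy)
        have k2 := m1 τ x
        have k3 := m3 τ (μ * x + l * y)
        nlinarith
  have hone : ∀ f : ℝ → ℝ, flow f 1 0 = PhiInv (∫ s, Phi (f s) ∂(gaussianReal 0 1)) := by
    intro f
    unfold flow heat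
    simp
  rw [show μ * 0 + l * 0 = (0 : ℝ) by ring, hone, hone, hone] at key
  linarith

/-- The Gaussian average of `Φ ∘ f` lies in `(0, 1)`. -/
theorem integral_Phi_mem {α : Type*} [MeasurableSpace α] {ρ : Measure α} [IsProbabilityMeasure ρ]
    {f : α → ℝ} (hf : AEStronglyMeasurable f ρ) :
    ∫ s, Phi (f s) ∂ρ ∈ Ioo (0 : ℝ) 1 := by
  have hm : AEStronglyMeasurable (fun s => Phi (f s)) ρ :=
    continuous_Phi.comp_aestronglyMeasurable hf
  have hint : Integrable (fun s => Phi (f s)) ρ :=
    Integrable.of_bound hm 1 (Eventually.of_forall fun s => abs_Phi_le _)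
  constructor
  · rw [integral_pos_iff_support_of_nonneg (fun s => (Phi_pos _).le) hint]
    have : Function.support (fun s => Phi (f s)) = univ := by
      ext s; simp [(Phi_pos (f s)).ne']
    rw [this]; simp
  · have hint2 : Integrable (fun s => 1 - Phi (f s)) ρ := (integrable_const 1).sub hint
    have hnn : 0 ≤ fun s => 1 - Phi (f s) := fun s => by
      have := Phi_lt_one (f s)
      change 0 ≤ 1 - Phi (f s)
      linarith
    have h1 : 0 < ∫ s, (1 - Phi (f s)) ∂ρ := by
      rw [integral_pos_iff_support_of_nonneg hnn hint2]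
      have : Function.support (fun s => 1 - Phi (f s)) = univ := by
        ext s
        have := Phi_lt_one (f s)
        simp only [Function.mem_support, mem_univ, iff_true]
        linarith
      rw [this]; simp
    rw [integral_sub (integrable_const 1) hint] at h1
    simp at h1
    exact h1

/-- One dimensional functional Ehrhard inequality for functions tending to `-∞` at infinity. -/
theorem ehrhard_coercive {f g h : ℝ → ℝ} (hf : Continuous f) (hg : Continuous g)
    (hh : Continuous h) {M : ℝ} (hfM : ∀ v, f v ≤ M) (hgM : ∀ v, g v ≤ M) (hhM : ∀ v, h v ≤ M)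
    (hfi : Tendsto f (comap (fun x : ℝ => |x|) atTop) atBot)
    (hgi : Tendsto g (comap (fun x : ℝ => |x|) atTop) atBot)
    {μ l : ℝ} (hμ : 0 < μ) (hl : 0 < l) (hμl : μ + l = 1)
    (H : ∀ x y, μ * f x + l * g y ≤ h (μ * x + l * y)) :
    μ * PhiInv (∫ s, Phi (f s) ∂(gaussianReal 0 1)) + l * PhiInv (∫ s, Phi (g s) ∂(gaussianReal 0 1))
      ≤ PhiInv (∫ s, Phi (h s) ∂(gaussianReal 0 1)) := by
  set c : ℝ → ℝ := fun b => max (max (μ * M - l * b) (l * M - μ * b)) (-b) with hc
  have hcbot : Tendsto c atTop atBot := by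
    have t1 : Tendsto (fun b => μ * M - l * b) atTop atBot :=
      tendsto_atBot_add_const_left _ (μ * M)
        (tendsto_neg_atTop_atBot.comp (tendsto_id.const_mul_atTop hl))
    have t2 : Tendsto (fun b => l * M - μ * b) atTop atBot :=
      tendsto_atBot_add_const_left _ (l * M)
        (tendsto_neg_atTop_atBot.comp (tendsto_id.const_mul_atTop hμ))
    rw [tendsto_atBot]
    intro y
    filter_upwards [tendsto_atBot.mp t1 y, tendsto_atBot.mp t2 y,
      tendsto_atBot.mp tendsto_neg_atTop_atBot y] with b h1 h2 h3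
    exact max_le (max_le h1 h2) h3
  have hbasic : ∀ b : ℝ, |M| + 1 ≤ b →
      μ * PhiInv (∫ s, Phi (max (f s) (-b)) ∂(gaussianReal 0 1)) +
        l * PhiInv (∫ s, Phi (max (g s) (-b)) ∂(gaussianReal 0 1))
      ≤ PhiInv (∫ s, Phi (max (h s) (c b)) ∂(gaussianReal 0 1)) := by
    intro b hb
    have hMb : -b ≤ M := by have := neg_abs_le M; linarith
    have hcM : c b ≤ M := by
      have h0 := abs_nonneg M
      have h1 := neg_abs_le M
      simp only [hc]
      refine max_le (max_le ?_ ?_) hMb
      · nlinarith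
      · nlinarith
    have hcb : -b ≤ c b := le_max_right _ _
    have lim : ∀ {u : ℝ → ℝ}, Tendsto u (comap (fun x : ℝ => |x|) atTop) atBot →
        Tendsto (fun s => max (u s) (-b)) (comap (fun x : ℝ => |x|) atTop) (𝓝 (-b)) := by
      intro u hu
      refine tendsto_const_nhds.congr' ?_
      filter_upwards [tendsto_atBot.mp hu (-b)] with s hs
      exact (max_eq_right hs).symm
    refine ehrhard_basic (a := -b) (b := M) (hf.max continuous_const) (hg.max continuous_const)
      (hh.max continuous_const) (fun v => ⟨le_max_right _ _, max_le (hfM v) hMb⟩)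
      (fun v => ⟨le_max_right _ _, max_le (hgM v) hMb⟩)
      (fun v => ⟨hcb.trans (le_max_right _ _), max_le (hhM v) hcM⟩) (lim hfi) (lim hgi) hμ hl hμl
      ?_ ?_ ?_
    · intro x y
      rcases le_total (f x) (-b) with h1 | h1
      · refine le_trans ?_ (le_max_right _ _)
        rw [max_eq_right h1]
        have h2 : max (g y) (-b) ≤ M := max_le (hgM y) hMb
        refine le_trans ?_ (le_trans (le_max_right _ _) (le_max_left _ _) :
          l * M - μ * b ≤ c b)
        nlinarith
      · rcases le_total (g y) (-b) with h2 | h2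
        · refine le_trans ?_ (le_max_right _ _)
          rw [max_eq_right h2]
          have h3 : max (f x) (-b) ≤ M := max_le (hfM x) hMb
          refine le_trans ?_ (le_trans (le_max_left _ _) (le_max_left _ _) :
            μ * M - l * b ≤ c b)
          nlinarith
        · rw [max_eq_left h1, max_eq_left h2]
          exact (H x y).trans (le_max_left _ _)
    · intro z y
      refine le_trans ?_ (le_max_right _ _)
      have h2 : max (g y) (-b) ≤ M := max_le (hgM y) hMb
      refine le_trans ?_ (le_trans (le_max_right _ _) (le_max_left _ _) :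
          l * M - μ * b ≤ c b)
      nlinarith
    · intro z x
      refine le_trans ?_ (le_max_right _ _)
      have h3 : max (f x) (-b) ≤ M := max_le (hfM x) hMb
      refine le_trans ?_ (le_trans (le_max_left _ _) (le_max_left _ _) :
            μ * M - l * b ≤ c b)
      nlinarith
  -- pass to the limit
  have hlim : ∀ {u : ℝ → ℝ} {d : ℝ → ℝ}, Continuous u → Tendsto d atTop atBot →
      Tendsto (fun b => PhiInv (∫ s, Phi (max (u s) (d b)) ∂(gaussianReal 0 1))) atTop
        (𝓝 (PhiInv (∫ s, Phi (u s) ∂(gaussianReal 0 1)))) := by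
    intro u d hu hd
    refine (PhiInv_continuousAt (integral_Phi_mem hu.aestronglyMeasurable)).tendsto.comp ?_
    refine tendsto_integral_filter_of_dominated_convergence (fun _ => 1)
      (Eventually.of_forall fun b => ?_) (Eventually.of_forall fun b => ?_) (integrable_const 1)
      (Eventually.of_forall fun s => ?_)
    · exact (continuous_Phi.comp (hu.max continuous_const)).aestronglyMeasurable
    · exact Eventually.of_forall fun s => abs_Phi_le _
    · refine tendsto_const_nhds.congr' ?_
      filter_upwards [tendsto_atBot.mp hd (u s)] with b hb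
      rw [max_eq_left hb]
  refine le_of_tendsto_of_tendsto
    (((hlim hf tendsto_neg_atTop_atBot).const_mul μ).add
      ((hlim hg tendsto_neg_atTop_atBot).const_mul l)) (hlim hh hcbot) ?_
  filter_upwards [eventually_ge_atTop (|M| + 1)] with b hb
  exact hbasic b hb

theorem conc_ineq {E : Type*} [AddCommGroup E] [Module ℝ E] {u : E → ℝ}
    (hu : ConcaveOn ℝ univ u) (x y : E) {a b : ℝ} (ha : 0 ≤ a) (hb : 0 ≤ b) (hab : a + b = 1) :
    a * u x + b * u y ≤ u (a • x + b • y) := by
  have h := hu.2 (mem_univ x) (mem_univ y) ha hb hab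
  simpa [smul_eq_mul] using h

/-- A concave function on the line has at most linear growth from above. -/
theorem concave_linear_bound {u : ℝ → ℝ} (hu : ConcaveOn ℝ univ u) :
    ∃ B : ℝ, 0 ≤ B ∧ ∀ s, u s ≤ u 0 + B * |s| := by
  refine ⟨max |u 0 - u (-1)| |u 0 - u 1|, (abs_nonneg _).trans (le_max_left _ _), fun s => ?_⟩
  rcases le_total 0 s with hs | hs
  · have h3 : (0 : ℝ) < 1 + s := by linarith
    have h1 := conc_ineq hu (-1 : ℝ) s (show 0 ≤ s / (1 + s) by positivity)
      (show 0 ≤ 1 / (1 + s) by positivity) (by field_simp; ring)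
    have h2 : (s / (1 + s)) • (-1 : ℝ) + (1 / (1 + s)) • s = 0 := by
      simp only [smul_eq_mul]; ring
    rw [h2] at h1
    have h4 : s * u (-1) + u s ≤ (1 + s) * u 0 := by
      have := mul_le_mul_of_nonneg_left h1 h3.le
      field_simp at this
      linarith
    have h5 : u 0 - u (-1) ≤ max |u 0 - u (-1)| |u 0 - u 1| :=
      (le_abs_self _).trans (le_max_left _ _)
    rw [abs_of_nonneg hs]
    nlinarith
  · have hs' : 0 ≤ -s := by linarith
    have h3 : (0 : ℝ) < 1 - s := by linarith
    have h1 := conc_ineq hu (1 : ℝ) s (show 0 ≤ -s / (1 - s) by positivity)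
      (show 0 ≤ 1 / (1 - s) by positivity) (by field_simp; ring)
    have h2 : (-s / (1 - s)) • (1 : ℝ) + (1 / (1 - s)) • s = 0 := by
      simp only [smul_eq_mul]; ring
    rw [h2] at h1
    have h4 : -s * u 1 + u s ≤ (1 - s) * u 0 := by
      have := mul_le_mul_of_nonneg_left h1 h3.le
      field_simp at this
      linarith
    have h5 : u 0 - u 1 ≤ max |u 0 - u (-1)| |u 0 - u 1| :=
      (le_abs_self _).trans (le_max_right _ _)
    rw [abs_of_nonpos hs]
    nlinarith

/-- Two dimensional Ehrhard inequality in functional form: averaging a jointly concave function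
over one Gaussian coordinate, in the `Φ` scale, gives a concave function. -/
theorem ehrhard_two {ψ : ℝ × ℝ → ℝ} (hψ : ConcaveOn ℝ univ ψ) :
    ConcaveOn ℝ univ (fun t => PhiInv (∫ s, Phi (ψ (t, s)) ∂(gaussianReal 0 1))) := by
  have hcont : Continuous ψ := continuousOn_univ.mp (hψ.continuousOn isOpen_univ)
  refine ⟨convex_univ, ?_⟩
  intro t1 _ t2 _ μ l hμ hl hμl
  rcases hμ.eq_or_lt with rfl | hμ0
  · have : l = 1 := by linarith
    subst this; simp
  rcases hl.eq_or_lt with rfl | hl0
  · have : μ = 1 := by linarith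
    subst this; simp
  simp only [smul_eq_mul]
  set t0 : ℝ := μ * t1 + l * t2 with ht0
  have hsec : ∀ t, ConcaveOn ℝ univ (fun s => ψ (t, s)) := by
    intro t
    refine ⟨convex_univ, fun x _ y _ a b ha hb hab => ?_⟩
    have h1 := hψ.2 (mem_univ (t, x)) (mem_univ (t, y)) ha hb hab
    have h2 : a • (t, x) + b • (t, y) = (t, a • x + b • y) := by
      ext
      · simp only [Prod.smul_mk, Prod.mk_add_mk, smul_eq_mul]
        rw [← add_mul, hab, one_mul]
      · simp
    rw [h2] at h1
    exact h1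
  have hε : ∀ ε : ℝ, 0 < ε →
      μ * PhiInv (∫ s, Phi (ψ (t1, s) - ε * s ^ 2) ∂(gaussianReal 0 1)) +
        l * PhiInv (∫ s, Phi (ψ (t2, s) - ε * s ^ 2) ∂(gaussianReal 0 1)) ≤
      PhiInv (∫ s, Phi (ψ (t0, s) - ε * s ^ 2) ∂(gaussianReal 0 1)) := by
    intro ε hε
    have hbd : ∀ t, (∃ M : ℝ, ∀ s, ψ (t, s) - ε * s ^ 2 ≤ M) ∧
        Tendsto (fun s => ψ (t, s) - ε * s ^ 2) (comap (fun x : ℝ => |x|) atTop) atBot := by
      intro t
      obtain ⟨B, hB0, hB⟩ := concave_linear_bound (hsec t)
      constructor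
      · refine ⟨ψ (t, 0) + B ^ 2 / (4 * ε), fun s => ?_⟩
        have h1 := hB s
        have h2 : B * |s| - ε * s ^ 2 ≤ B ^ 2 / (4 * ε) := by
          rw [le_div_iff₀ (by positivity), ← sq_abs s]
          nlinarith [sq_nonneg (B - 2 * ε * |s|)]
        linarith
      · have h1 : Tendsto (fun r : ℝ => ψ (t, 0) + (B * r - ε * r ^ 2)) atTop atBot := by
          refine tendsto_atBot_add_const_left _ _ ?_
          have h2 : (fun r : ℝ => B * r - ε * r ^ 2) = fun r => r * (B - ε * r) := by
            ext r; ring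
          rw [h2]
          refine tendsto_id.atTop_mul_atBot₀ ?_
          exact tendsto_atBot_add_const_left _ B
            (tendsto_neg_atTop_atBot.comp (tendsto_id.const_mul_atTop hε))
        have h3 := h1.comp (tendsto_comap (f := fun x : ℝ => |x|) (x := atTop))
        refine tendsto_atBot_mono (fun s => ?_) h3
        simp only [Function.comp, sq_abs]
        linarith [hB s]
    obtain ⟨⟨M1, hM1⟩, l1⟩ := hbd t1
    obtain ⟨⟨M2, hM2⟩, l2⟩ := hbd t2
    obtain ⟨⟨M3, hM3⟩, l3⟩ := hbd t0
    refine ehrhard_coercive (M := max M1 (max M2 M3)) (by fun_prop) (by fun_prop) (by fun_prop)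
      (fun v => (hM1 v).trans (le_max_left _ _))
      (fun v => (hM2 v).trans ((le_max_left _ _).trans (le_max_right _ _)))
      (fun v => (hM3 v).trans ((le_max_right _ _).trans (le_max_right _ _)))
      l1 l2 hμ0 hl0 hμl (fun x y => ?_)
    have h1 := hψ.2 (mem_univ (t1, x)) (mem_univ (t2, y)) hμ hl hμl
    have h2 : μ • (t1, x) + l • (t2, y) = (t0, μ * x + l * y) := by
      ext <;> simp [ht0]
    rw [h2, smul_eq_mul, smul_eq_mul] at h1
    have h3 : (μ * x + l * y) ^ 2 ≤ μ * x ^ 2 + l * y ^ 2 := by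
      have h4 : l = 1 - μ := by linarith
      subst h4
      nlinarith [sq_nonneg (x - y), mul_nonneg hμ hl]
    nlinarith
  have hlim : ∀ t, Tendsto (fun ε : ℝ => PhiInv (∫ s, Phi (ψ (t, s) - ε * s ^ 2) ∂(gaussianReal 0 1)))
      (𝓝[>] 0) (𝓝 (PhiInv (∫ s, Phi (ψ (t, s)) ∂(gaussianReal 0 1)))) := by
    intro t
    have hu : Continuous (fun s => ψ (t, s)) := by fun_prop
    refine (PhiInv_continuousAt (integral_Phi_mem hu.aestronglyMeasurable)).tendsto.comp ?_
    refine tendsto_integral_filter_of_dominated_convergence (fun _ => 1)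
      (Eventually.of_forall fun b => ?_) (Eventually.of_forall fun b => ?_) (integrable_const 1)
      (Eventually.of_forall fun s => ?_)
    · exact (continuous_Phi.comp (by fun_prop)).aestronglyMeasurable
    · exact Eventually.of_forall fun s => abs_Phi_le _
    · have h1 : Continuous fun ε : ℝ => Phi (ψ (t, s) - ε * s ^ 2) :=
        continuous_Phi.comp (by fun_prop)
      have h2 := (h1.tendsto 0).mono_left (nhdsWithin_le_nhds (s := Ioi 0))
      simpa using h2
  refine le_of_tendsto_of_tendsto (((hlim t1).const_mul μ).add ((hlim t2).const_mul l))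
    (hlim t0) ?_
  filter_upwards [self_mem_nhdsWithin] with ε hε0
  exact hε ε hε0

/-- Averaging a concave function over one Gaussian direction. -/
theorem ehrhard_dir {E : Type*} [AddCommGroup E] [Module ℝ E] {Ψ : E → ℝ}
    (hΨ : ConcaveOn ℝ univ Ψ) (w : E) :
    ConcaveOn ℝ univ (fun y => PhiInv (∫ s, Phi (Ψ (y + s • w)) ∂(gaussianReal 0 1))) := by
  refine ⟨convex_univ, ?_⟩
  intro y1 _ y2 _ μ l hμ hl hμl
  have hψ : ConcaveOn ℝ univ (fun p : ℝ × ℝ => Ψ (y1 + p.1 • (y2 - y1) + p.2 • w)) := by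
    refine ⟨convex_univ, fun p _ q _ a b ha hb hab => ?_⟩
    have h1 := hΨ.2 (mem_univ (y1 + p.1 • (y2 - y1) + p.2 • w))
      (mem_univ (y1 + q.1 • (y2 - y1) + q.2 • w)) ha hb hab
    have h2 : a • (y1 + p.1 • (y2 - y1) + p.2 • w) + b • (y1 + q.1 • (y2 - y1) + q.2 • w) =
        y1 + (a • p + b • q).1 • (y2 - y1) + (a • p + b • q).2 • w := by
      have h3 : b = 1 - a := by linarith
      subst h3
      simp only [Prod.fst_add, Prod.snd_add, Prod.smul_fst, Prod.smul_snd, smul_eq_mul]
      module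
    rw [h2] at h1
    exact h1
  have h := (ehrhard_two hψ).2 (mem_univ (0 : ℝ)) (mem_univ (1 : ℝ)) hμ hl hμl
  simp only [smul_eq_mul] at h ⊢
  have e1 : ∀ s : ℝ, y1 + (0 : ℝ) • (y2 - y1) + s • w = y1 + s • w := fun s => by module
  have e2 : ∀ s : ℝ, y1 + (1 : ℝ) • (y2 - y1) + s • w = y2 + s • w := fun s => by module
  have e3 : ∀ s : ℝ, y1 + (μ * 0 + l * 1) • (y2 - y1) + s • w = μ • y1 + l • y2 + s • w := by
    intro s
    have h3 : μ = 1 - l := by linarith
    subst h3
    module
  simp_rw [e1, e2, e3] at h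
  exact h

end Vale.Agent.P226E
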