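import Vale.Agent.Lib.P226E.Heat

open MeasureTheory ProbabilityTheory Real Set Filter Topology

namespace Vale.Agent.P226E

/-- A solution of `F_τ = (F'' - F F'^2) / 2` on `(0, 1]`, continuous up to time `0`. -/
structure IsFlow (F : ℝ → ℝ → ℝ) : Prop where
  cont : ContinuousOn (fun p : ℝ × ℝ => F p.1 p.2) (Icc 0 1 ×ˢ univ)
  derivs : ∀ τ, 0 < τ → ∃ F1 F2 : ℝ → ℝ, (∀ x, HasDerivAt (F τ) (F1 x) x) ∧
    (∀ x, HasDerivAt F1 (F2 x) x) ∧
    ∀ x, HasDerivAt (fun τ => F τ x) ((F2 x - F τ x * (F1 x) ^ 2) / 2) τ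

/-- The image of a bounded continuous function under the `Φ`-transformed heat semigroup. -/
noncomputable def flow (f : ℝ → ℝ) (τ x : ℝ) : ℝ := PhiInv (heat (fun v => Phi (f v)) τ x)

theorem flow_zero (f : ℝ → ℝ) (x : ℝ) : flow f 0 x = f x := by
  unfold flow; rw [heat_zero, PhiInv_Phi]

theorem abs_Phi_le (x : ℝ) : |Phi x| ≤ 1 := by
  rw [abs_of_pos (Phi_pos x)]; exact (Phi_lt_one x).le

theorem heat_Phi_mem {f : ℝ → ℝ} (hf : Continuous f) {a b : ℝ} (h : ∀ v, f v ∈ Icc a b)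
    (τ x : ℝ) : heat (fun v => Phi (f v)) τ x ∈ Icc (Phi a) (Phi b) :=
  heat_mem_Icc (continuous_Phi.comp hf) (fun v => ⟨strictMono_Phi.monotone (h v).1,
    strictMono_Phi.monotone (h v).2⟩) τ x

theorem Icc_Phi_subset (a b : ℝ) : Icc (Phi a) (Phi b) ⊆ Ioo 0 1 := fun _ hp =>
  ⟨lt_of_lt_of_le (Phi_pos a) hp.1, lt_of_le_of_lt hp.2 (Phi_lt_one b)⟩

theorem flow_mem {f : ℝ → ℝ} (hf : Continuous f) {a b : ℝ} (h : ∀ v, f v ∈ Icc a b)
    (τ x : ℝ) : flow f τ x ∈ Icc a b := by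
  have h1 := heat_Phi_mem hf h τ x
  have h2 := Icc_Phi_subset a b h1
  exact ⟨(le_PhiInv_iff h2).mpr h1.1, (PhiInv_le_iff h2).mpr h1.2⟩

theorem isFlow_flow {f : ℝ → ℝ} (hf : Continuous f) {a b : ℝ} (h : ∀ v, f v ∈ Icc a b) :
    IsFlow (flow f) where
  cont := by
    have h1 : Continuous (fun p : ℝ × ℝ => heat (fun v => Phi (f v)) p.1 p.2) :=
      continuous_heat (continuous_Phi.comp hf) (fun v => abs_Phi_le _)
    refine PhiInv_continuousOn.comp h1.continuousOn ?_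
    intro p _
    exact Icc_Phi_subset a b (heat_Phi_mem hf h p.1 p.2)
  derivs τ hτ := by
    obtain ⟨W1, W2, hW1, hW2, hWt⟩ := heat_derivs (continuous_Phi.comp hf).aestronglyMeasurable
      (fun v => abs_Phi_le _) hτ
    have hmem : ∀ τ x, heat (fun v => Phi (f v)) τ x ∈ Ioo (0 : ℝ) 1 := fun τ x =>
      Icc_Phi_subset a b (heat_Phi_mem hf h τ x)
    have hF1 : ∀ x, HasDerivAt (flow f τ) (W1 x / gd (flow f τ x)) x := by
      intro x
      have h1 := (hasDerivAt_PhiInv (hmem τ x)).comp x (hW1 x)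
      refine h1.congr_deriv ?_
      unfold flow
      rw [div_eq_inv_mul]
    refine ⟨fun x => W1 x / gd (flow f τ x),
      fun x => W2 x / gd (flow f τ x) + flow f τ x * (W1 x / gd (flow f τ x)) ^ 2,
      hF1, fun x => ?_, fun x => ?_⟩
    · have hg : HasDerivAt (fun x => gd (flow f τ x))
          (-(flow f τ x) * gd (flow f τ x) * (W1 x / gd (flow f τ x))) x :=
        (hasDerivAt_gd _).comp x (hF1 x)
      have h2 := (hW2 x).div hg (gd_pos _).ne'
      refine h2.congr_deriv ?_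
      have := (gd_pos (flow f τ x)).ne'
      field_simp
      ring
    · have h1 := (hasDerivAt_PhiInv (hmem τ x)).comp τ (hWt x)
      refine h1.congr_deriv ?_
      have := (gd_pos (flow f τ x)).ne'
      change (gd (flow f τ x))⁻¹ * (W2 x / 2) = _
      field_simp
      ring

/-- A necessary second order condition at a local minimum. -/
theorem second_deriv_nonneg {φ φ1 : ℝ → ℝ} {d x : ℝ} (h1 : ∀ y, HasDerivAt φ (φ1 y) y)
    (h2 : HasDerivAt φ1 d x) (hmin : IsLocalMin φ x) : 0 ≤ d := by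
  by_contra hd
  push Not at hd
  have hd1 : deriv φ = φ1 := funext fun y => (h1 y).deriv
  have hx0 : deriv φ x = 0 := hmin.deriv_eq_zero
  have hmax : IsLocalMax φ x := by
    refine isLocalMax_of_deriv_deriv_neg ?_ hx0 (h1 x).continuousAt
    rw [hd1, h2.deriv]
    exact hd
  have hconst : ∀ᶠ y in 𝓝 x, φ y = φ x := by
    filter_upwards [hmin, hmax] with y hy1 hy2
    exact le_antisymm hy2 hy1
  have hderiv : ∀ᶠ y in 𝓝 x, φ1 y = 0 := by
    filter_upwards [hconst.eventually_nhds] with y hy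
    have h3 : φ =ᶠ[𝓝 y] fun _ => φ x := hy
    have h4 : HasDerivAt φ 0 y := (hasDerivAt_const y (φ x)).congr_of_eventuallyEq h3
    exact (h1 y).unique h4
  have h5 : HasDerivAt φ1 0 x := (hasDerivAt_const x (0 : ℝ)).congr_of_eventuallyEq hderiv
  have := h2.unique h5
  linarith

/-- A one sided first order condition at a minimum over a left neighbourhood. -/
theorem deriv_nonpos_of_left_min {φ : ℝ → ℝ} {d τ : ℝ} (hτ : 0 < τ) (h : HasDerivAt φ d τ)
    (hmin : ∀ t, 0 ≤ t → t ≤ τ → φ τ ≤ φ t) : d ≤ 0 := by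
  have h1 : Tendsto (slope φ τ) (𝓝[<] τ) (𝓝 d) :=
    (hasDerivAt_iff_tendsto_slope.mp h).mono_left (nhdsWithin_mono _ fun y hy => ne_of_lt hy)
  refine le_of_tendsto h1 ?_
  have h2 : ∀ᶠ y in 𝓝[<] τ, 0 ≤ y := by
    have : ∀ᶠ y in 𝓝 τ, 0 ≤ y := (lt_mem_nhds hτ).mono fun y hy => le_of_lt hy
    exact this.filter_mono nhdsWithin_le_nhds
  filter_upwards [h2, self_mem_nhdsWithin] with y hy1 hy2
  rw [slope_def_field]
  have hy3 : y < τ := hy2
  exact div_nonpos_of_nonneg_of_nonpos (by linarith [hmin y hy1 hy3.le]) (by linarith)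

/-- The maximum principle behind the Ehrhard-Borell inequality. -/
theorem max_principle {F G H : ℝ → ℝ → ℝ} (hF : IsFlow F) (hG : IsFlow G) (hH : IsFlow H)
    {μ l : ℝ} (hμ : 0 < μ) (hl : 0 < l) (hμl : μ + l = 1)
    (h0 : ∀ x y, 0 ≤ H 0 (μ * x + l * y) - μ * F 0 x - l * G 0 y)
    (hinf : ∀ η : ℝ, 0 < η → ∃ R : ℝ, ∀ τ ∈ Icc (0 : ℝ) 1, ∀ x y : ℝ, (R ≤ |x| ∨ R ≤ |y|) →
      -η ≤ H τ (μ * x + l * y) - μ * F τ x - l * G τ y) (x y : ℝ) :
    0 ≤ H 1 (μ * x + l * y) - μ * F 1 x - l * G 1 y := by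
  by_contra hneg
  push Not at hneg
  set C : ℝ → ℝ → ℝ → ℝ := fun τ x y => H τ (μ * x + l * y) - μ * F τ x - l * G τ y with hC
  set η : ℝ := -(C 1 x y) / 2 with hη
  have hη0 : 0 < η := by
    have : C 1 x y < 0 := hneg
    rw [hη]; linarith
  obtain ⟨R, hR⟩ := hinf (η / 2) (by linarith)
  set R' : ℝ := max R (max |x| |y|) with hR'
  set K : Set (ℝ × ℝ × ℝ) := Icc (0 : ℝ) 1 ×ˢ (Icc (-R') R' ×ˢ Icc (-R') R') with hK
  have hKc : IsCompact K := isCompact_Icc.prod (isCompact_Icc.prod isCompact_Icc)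
  have hxm : |x| ≤ R' := (le_max_left _ _).trans (le_max_right _ _)
  have hym : |y| ≤ R' := (le_max_right _ _).trans (le_max_right _ _)
  have hmemK : ((1 : ℝ), x, y) ∈ K :=
    ⟨⟨zero_le_one, le_rfl⟩, abs_le.mp hxm, abs_le.mp hym⟩
  set D : ℝ × ℝ × ℝ → ℝ := fun p => C p.1 p.2.1 p.2.2 + η * p.1 with hD
  have hDc : ContinuousOn D (Icc (0 : ℝ) 1 ×ˢ univ) := by
    have e1 : ContinuousOn (fun p : ℝ × ℝ × ℝ => H p.1 (μ * p.2.1 + l * p.2.2))
        (Icc (0 : ℝ) 1 ×ˢ univ) :=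
      hH.cont.comp (by fun_prop : Continuous fun p : ℝ × ℝ × ℝ =>
        (p.1, μ * p.2.1 + l * p.2.2)).continuousOn (fun p hp => ⟨hp.1, mem_univ _⟩)
    have e2 : ContinuousOn (fun p : ℝ × ℝ × ℝ => F p.1 p.2.1) (Icc (0 : ℝ) 1 ×ˢ univ) :=
      hF.cont.comp (by fun_prop : Continuous fun p : ℝ × ℝ × ℝ =>
        (p.1, p.2.1)).continuousOn (fun p hp => ⟨hp.1, mem_univ _⟩)
    have e3 : ContinuousOn (fun p : ℝ × ℝ × ℝ => G p.1 p.2.2) (Icc (0 : ℝ) 1 ×ˢ univ) :=
      hG.cont.comp (by fun_prop : Continuous fun p : ℝ × ℝ × ℝ =>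
        (p.1, p.2.2)).continuousOn (fun p hp => ⟨hp.1, mem_univ _⟩)
    exact ((e1.sub (continuousOn_const.mul e2)).sub (continuousOn_const.mul e3)).add
      (by fun_prop : Continuous fun p : ℝ × ℝ × ℝ => η * p.1).continuousOn
  have hDK : ContinuousOn D K := hDc.mono fun p hp => ⟨hp.1, mem_univ _⟩
  obtain ⟨⟨τ, x0, y0⟩, hpK, hpmin⟩ := hKc.exists_isMinOn ⟨_, hmemK⟩ hDK
  have hval : D (τ, x0, y0) ≤ -η := by
    have h1 := hpmin hmemK
    have h2 : D (1, x, y) = -η := by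
      simp only [hD]
      rw [hη]; ring
    rw [← h2]; exact h1
  -- global minimality
  have hglob : ∀ t ∈ Icc (0 : ℝ) 1, ∀ a b : ℝ, D (τ, x0, y0) ≤ D (t, a, b) := by
    intro t ht a b
    by_cases hab : |a| ≤ R' ∧ |b| ≤ R'
    · exact hpmin (show (t, a, b) ∈ K from ⟨ht, abs_le.mp hab.1, abs_le.mp hab.2⟩)
    · have h1 : R ≤ |a| ∨ R ≤ |b| := by
        rw [not_and_or, not_le, not_le] at hab
        rcases hab with h | h
        · exact Or.inl ((le_max_left _ _).trans h.le)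
        · exact Or.inr ((le_max_left _ _).trans h.le)
      have h2 := hR t ht a b h1
      have h3 : -(η / 2) ≤ C t a b := h2
      have h4 : 0 ≤ η * t := mul_nonneg hη0.le ht.1
      calc D (τ, x0, y0) ≤ -η := hval
        _ ≤ C t a b + η * t := by linarith
  have hτmem : τ ∈ Icc (0 : ℝ) 1 := hpK.1
  have hτ0 : 0 < τ := by
    rcases hτmem.1.lt_or_eq with h | h
    · exact h
    · exfalso
      have h1 : 0 ≤ C 0 x0 y0 := h0 x0 y0
      have h2 : D (τ, x0, y0) = C 0 x0 y0 := by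
        simp only [hD]; rw [← h]; ring
      linarith
  obtain ⟨F1, F2, hF1, hF2, hFt⟩ := hF.derivs τ hτ0
  obtain ⟨G1, G2, hG1, hG2, hGt⟩ := hG.derivs τ hτ0
  obtain ⟨H1, H2, hH1, hH2, hHt⟩ := hH.derivs τ hτ0
  set z0 : ℝ := μ * x0 + l * y0 with hz0
  have hspace : ∀ a b : ℝ, C τ x0 y0 ≤ C τ a b := by
    intro a b
    have := hglob τ hτmem a b
    simp only [hD] at this
    linarith
  -- first order conditions
  have hfx : H1 z0 = F1 x0 := by
    have hd : HasDerivAt (fun a => C τ a y0) (H1 z0 * μ - μ * F1 x0) x0 := by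
      have e1 : HasDerivAt (fun a => μ * a + l * y0) μ x0 := by
        simpa using ((hasDerivAt_id x0).const_mul μ).add_const (l * y0)
      have e2 : HasDerivAt (fun a => H τ (μ * a + l * y0)) (H1 z0 * μ) x0 :=
        (hH1 z0).comp x0 e1
      exact (e2.sub ((hF1 x0).const_mul μ)).sub_const _
    have hm : IsLocalMin (fun a => C τ a y0) x0 := Eventually.of_forall fun a => hspace a y0
    have := hm.hasDerivAt_eq_zero hd
    have h3 : μ * (H1 z0 - F1 x0) = 0 := by linarith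
    rcases mul_eq_zero.mp h3 with h | h
    · exact absurd h hμ.ne'
    · linarith
  have hfy : H1 z0 = G1 y0 := by
    have hd : HasDerivAt (fun b => C τ x0 b) (H1 z0 * l - l * G1 y0) y0 := by
      have e1 : HasDerivAt (fun b => μ * x0 + l * b) l y0 := by
        simpa using ((hasDerivAt_id y0).const_mul l).const_add (μ * x0)
      have e2 : HasDerivAt (fun b => H τ (μ * x0 + l * b)) (H1 z0 * l) y0 :=
        (hH1 z0).comp y0 e1
      exact (e2.sub_const _).sub ((hG1 y0).const_mul l)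
    have hm : IsLocalMin (fun b => C τ x0 b) y0 := Eventually.of_forall fun b => hspace x0 b
    have := hm.hasDerivAt_eq_zero hd
    have h3 : l * (H1 z0 - G1 y0) = 0 := by linarith
    rcases mul_eq_zero.mp h3 with h | h
    · exact absurd h hl.ne'
    · linarith
  -- second order condition along the diagonal
  have hsecond : 0 ≤ H2 z0 - μ * F2 x0 - l * G2 y0 := by
    have hd1 : ∀ e, HasDerivAt (fun e => H τ (z0 + e) - μ * F τ (x0 + e) - l * G τ (y0 + e))
        (H1 (z0 + e) - μ * F1 (x0 + e) - l * G1 (y0 + e)) e := by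
      intro e
      have a1 := (hH1 (z0 + e)).comp_const_add z0 e
      have a2 := ((hF1 (x0 + e)).comp_const_add x0 e).const_mul μ
      have a3 := ((hG1 (y0 + e)).comp_const_add y0 e).const_mul l
      exact (a1.sub a2).sub a3
    have hd2 : HasDerivAt (fun e => H1 (z0 + e) - μ * F1 (x0 + e) - l * G1 (y0 + e))
        (H2 z0 - μ * F2 x0 - l * G2 y0) 0 := by
      have a1 := (show HasDerivAt H1 (H2 z0) (z0 + 0) by rw [add_zero]; exact hH2 z0).comp_const_add z0 0
      have a2 := ((show HasDerivAt F1 (F2 x0) (x0 + 0) by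
        rw [add_zero]; exact hF2 x0).comp_const_add x0 0).const_mul μ
      have a3 := ((show HasDerivAt G1 (G2 y0) (y0 + 0) by
        rw [add_zero]; exact hG2 y0).comp_const_add y0 0).const_mul l
      exact (a1.sub a2).sub a3
    refine second_deriv_nonneg hd1 hd2 (Eventually.of_forall fun e => ?_)
    have h1 := hspace (x0 + e) (y0 + e)
    have h2 : μ * (x0 + e) + l * (y0 + e) = z0 + e := by
      rw [hz0]; linear_combination e * hμl
    simp only [hC] at h1
    rw [h2] at h1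
    simpa using h1
  -- time derivative
  have htime : ((H2 z0 - H τ z0 * (H1 z0) ^ 2) / 2) - μ * ((F2 x0 - F τ x0 * (F1 x0) ^ 2) / 2) -
      l * ((G2 y0 - G τ y0 * (G1 y0) ^ 2) / 2) + η ≤ 0 := by
    have hd : HasDerivAt (fun t => H t z0 - μ * F t x0 - l * G t y0 + η * t)
        (((H2 z0 - H τ z0 * (H1 z0) ^ 2) / 2) - μ * ((F2 x0 - F τ x0 * (F1 x0) ^ 2) / 2) -
      l * ((G2 y0 - G τ y0 * (G1 y0) ^ 2) / 2) + η) τ := by
      have a4 : HasDerivAt (fun t : ℝ => η * t) η τ := by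
        simpa using (hasDerivAt_id τ).const_mul η
      exact (((hHt z0).sub ((hFt x0).const_mul μ)).sub ((hGt y0).const_mul l)).add a4
    refine deriv_nonpos_of_left_min hτ0 hd fun t ht1 ht2 => ?_
    exact hglob t ⟨ht1, ht2.trans hτmem.2⟩ x0 y0
  have hCneg : H τ z0 - μ * F τ x0 - l * G τ y0 ≤ 0 := by
    have h1 : D (τ, x0, y0) = H τ z0 - μ * F τ x0 - l * G τ y0 + η * τ := rfl
    have h2 : 0 ≤ η * τ := by positivity
    linarith
  rw [← hfx, ← hfy] at htime
  nlinarith [sq_nonneg (H1 z0), mul_nonneg (sq_nonneg (H1 z0)) (neg_nonneg.mpr hCneg)]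

end Vale.Agent.P226E
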