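import Vale.Agent.Lib.P226E.Phi

open MeasureTheory ProbabilityTheory Real Set Filter Topology

namespace Vale.Agent.P226E

/-- The heat semigroup at time `τ` (Gaussian average with variance `τ`). -/
noncomputable def heat (k : ℝ → ℝ) (τ x : ℝ) : ℝ := ∫ s, k (x + √τ * s) ∂(gaussianReal 0 1)

theorem integrable_bound {c : ℝ} (hc : 0 < c) (K x0 : ℝ) :
    Integrable (fun v : ℝ => K * (1 + (v - x0) ^ 2) * exp (-c * (v - x0) ^ 2)) := by
  have h1 : Integrable (fun v : ℝ => exp (-c * v ^ 2)) := integrable_exp_neg_mul_sq hc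
  have h2 : Integrable (fun v : ℝ => v ^ (2 : ℝ) * exp (-c * v ^ 2)) :=
    integrable_rpow_mul_exp_neg_mul_sq hc (by norm_num)
  have h3 : Integrable (fun v : ℝ => K * (exp (-c * v ^ 2) + v ^ (2 : ℝ) * exp (-c * v ^ 2))) :=
    (h1.add h2).const_mul K
  have h4 := h3.comp_sub_right x0
  refine h4.congr (Eventually.of_forall fun v => ?_)
  simp only [Real.rpow_two]
  ring

theorem heat_eq {τ : ℝ} (hτ : 0 < τ) (k : ℝ → ℝ) (x : ℝ) :
    heat k τ x = (√(2 * π * τ))⁻¹ * ∫ v, k v * exp (-(2 * τ)⁻¹ * (v - x) ^ 2) := by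
  have hcoe : ((Real.toNNReal τ : NNReal) : ℝ) = τ := Real.coe_toNNReal τ hτ.le
  have hmap : (gaussianReal 0 1).map (fun s => x + √τ * s) = gaussianReal x (Real.toNNReal τ) := by
    have h1 : (fun s : ℝ => x + √τ * s) = (fun s => x + s) ∘ (fun s => √τ * s) := rfl
    rw [h1, ← Measure.map_map (by fun_prop) (by fun_prop), gaussianReal_map_const_mul,
      gaussianReal_map_const_add]
    congr 1
    · simp
    · ext
      simp [Real.sq_sqrt hτ.le, hcoe]
  have hv : (Real.toNNReal τ : NNReal) ≠ 0 := by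
    intro h
    rw [h] at hcoe
    simp at hcoe
    linarith
  unfold heat
  have h2 : ∫ s, k (x + √τ * s) ∂(gaussianReal 0 1) =
      ∫ v, k v ∂((gaussianReal 0 1).map (fun s => x + √τ * s)) := by
    have hemb : MeasurableEmbedding (fun s : ℝ => x + √τ * s) := by
      have hs : √τ ≠ 0 := (Real.sqrt_pos.mpr hτ).ne'
      exact ((Homeomorph.mulLeft₀ (√τ) hs).trans (Homeomorph.addLeft x)).measurableEmbedding
    rw [hemb.integral_map]
  rw [h2, hmap, integral_gaussianReal_eq_integral_smul hv, ← integral_const_mul]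
  congr 1
  ext v
  unfold gaussianPDFReal
  rw [hcoe, smul_eq_mul]
  have h3 : -(v - x) ^ 2 / (2 * τ) = -(2 * τ)⁻¹ * (v - x) ^ 2 := by
    field_simp
  rw [h3]
  ring

/-- Derivative in space of the unnormalised Gaussian integral. -/
theorem hasDerivAt_gauss_x {c : ℝ} (hc : 0 < c) {k : ℝ → ℝ} (hk : AEStronglyMeasurable k)
    {M : ℝ} (hM : ∀ v, |k v| ≤ M) (x : ℝ) :
    HasDerivAt (fun x => ∫ v, k v * exp (-c * (v - x) ^ 2))
      (∫ v, k v * (2 * c * (v - x) * exp (-c * (v - x) ^ 2))) x := by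
  have hM0 : 0 ≤ M := (abs_nonneg _).trans (hM 0)
  have hb : Integrable (fun v : ℝ => (M * (4 * c) * exp c) * (1 + (v - x) ^ 2) *
      exp (-(c / 2) * (v - x) ^ 2)) := integrable_bound (by positivity) _ _
  have hb1 : Integrable (fun v : ℝ => M * (1 + (v - x) ^ 2) *
      exp (-c * (v - x) ^ 2)) := integrable_bound (by positivity) _ _
  refine (hasDerivAt_integral_of_dominated_loc_of_deriv_le (μ := volume) (𝕜 := ℝ) (E := ℝ)
    (F := fun (x v : ℝ) => k v * exp (-c * (v - x) ^ 2))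
    (F' := fun (x v : ℝ) => k v * (2 * c * (v - x) * exp (-c * (v - x) ^ 2)))
    (Metric.ball_mem_nhds x one_pos)
    (Eventually.of_forall fun y => ?_) ?_ ?_ (Eventually.of_forall fun v y hy => ?_) hb
    (Eventually.of_forall fun v y hy => ?_)).2
  · exact hk.mul (by fun_prop : Continuous fun v : ℝ => exp (-c * (v - y) ^ 2)).aestronglyMeasurable
  · refine hb1.mono' (hk.mul (by fun_prop :
      Continuous fun v : ℝ => exp (-c * (v - x) ^ 2)).aestronglyMeasurable)
      (Eventually.of_forall fun v => ?_)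
    rw [norm_mul, Real.norm_eq_abs, Real.norm_eq_abs, abs_of_pos (exp_pos _)]
    gcongr
    calc |k v| ≤ M := hM v
      _ ≤ M * (1 + (v - x) ^ 2) := by nlinarith [sq_nonneg (v - x)]
  · exact hk.mul (by fun_prop : Continuous fun v : ℝ =>
      2 * c * (v - x) * exp (-c * (v - x) ^ 2)).aestronglyMeasurable
  · rw [Metric.mem_ball, Real.dist_eq] at hy
    rw [norm_mul, norm_mul, Real.norm_eq_abs, Real.norm_eq_abs, Real.norm_eq_abs,
      abs_of_pos (exp_pos _)]
    have hy2 : (y - x) ^ 2 ≤ 1 := by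
      have := abs_lt.mp hy
      nlinarith [abs_nonneg (y - x), sq_abs (y - x)]
    have e1 : exp (-c * (v - y) ^ 2) ≤ exp c * exp (-(c / 2) * (v - x) ^ 2) := by
      rw [← exp_add]
      apply exp_le_exp.mpr
      have : (v - y) ^ 2 ≥ (v - x) ^ 2 / 2 - (y - x) ^ 2 := by nlinarith [sq_nonneg (v - x - 2 * (y - x))]
      nlinarith
    have e2 : |2 * c * (v - y)| ≤ 4 * c * (1 + (v - x) ^ 2) := by
      rw [abs_mul, abs_of_pos (by positivity : 0 < 2 * c)]
      have : |v - y| ≤ 2 * (1 + (v - x) ^ 2) := by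
        have h1 : |v - y| ≤ |v - x| + |y - x| := by
          have := abs_sub_le v x y
          rwa [abs_sub_comm x y] at this
        nlinarith [sq_nonneg (|v - x| - 1), sq_abs (v - x), abs_nonneg (v - x)]
      nlinarith
    calc |k v| * (|2 * c * (v - y)| * exp (-c * (v - y) ^ 2))
        ≤ M * ((4 * c * (1 + (v - x) ^ 2)) * (exp c * exp (-(c / 2) * (v - x) ^ 2))) := by
          gcongr
          exact hM v
      _ = _ := by ring
  · have h1 : HasDerivAt (fun y : ℝ => -c * (v - y) ^ 2) (2 * c * (v - y)) y := by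
      have := (((hasDerivAt_id y).const_sub v).pow 2).const_mul (-c)
      refine this.congr_deriv ?_
      simp
      ring
    refine (h1.exp.const_mul (k v)).congr_deriv ?_
    ring

/-- Second derivative in space of the unnormalised Gaussian integral. -/
theorem hasDerivAt_gauss_xx {c : ℝ} (hc : 0 < c) {k : ℝ → ℝ} (hk : AEStronglyMeasurable k)
    {M : ℝ} (hM : ∀ v, |k v| ≤ M) (x : ℝ) :
    HasDerivAt (fun x => ∫ v, k v * (2 * c * (v - x) * exp (-c * (v - x) ^ 2)))
      (∫ v, k v * ((4 * c ^ 2 * (v - x) ^ 2 - 2 * c) * exp (-c * (v - x) ^ 2))) x := by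
  have hM0 : 0 ≤ M := (abs_nonneg _).trans (hM 0)
  have hb : Integrable (fun v : ℝ => (M * (8 * c ^ 2 + 2 * c) * exp c) * (1 + (v - x) ^ 2) *
      exp (-(c / 2) * (v - x) ^ 2)) := integrable_bound (by positivity) _ _
  have hb1 : Integrable (fun v : ℝ => (M * (4 * c)) * (1 + (v - x) ^ 2) *
      exp (-c * (v - x) ^ 2)) := integrable_bound (by positivity) _ _
  refine (hasDerivAt_integral_of_dominated_loc_of_deriv_le (μ := volume) (𝕜 := ℝ) (E := ℝ)
    (F := fun (x v : ℝ) => k v * (2 * c * (v - x) * exp (-c * (v - x) ^ 2)))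
    (F' := fun (x v : ℝ) => k v * ((4 * c ^ 2 * (v - x) ^ 2 - 2 * c) * exp (-c * (v - x) ^ 2)))
    (Metric.ball_mem_nhds x one_pos)
    (Eventually.of_forall fun y => ?_) ?_ ?_ (Eventually.of_forall fun v y hy => ?_) hb
    (Eventually.of_forall fun v y hy => ?_)).2
  · exact hk.mul (by fun_prop : Continuous fun v : ℝ =>
      2 * c * (v - y) * exp (-c * (v - y) ^ 2)).aestronglyMeasurable
  · refine hb1.mono' (hk.mul (by fun_prop : Continuous fun v : ℝ =>
      2 * c * (v - x) * exp (-c * (v - x) ^ 2)).aestronglyMeasurable)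
      (Eventually.of_forall fun v => ?_)
    rw [norm_mul, norm_mul, Real.norm_eq_abs, Real.norm_eq_abs, Real.norm_eq_abs,
      abs_of_pos (exp_pos _)]
    have e2 : |2 * c * (v - x)| ≤ 4 * c * (1 + (v - x) ^ 2) := by
      rw [abs_mul, abs_of_pos (by positivity : 0 < 2 * c)]
      have : |v - x| ≤ 2 * (1 + (v - x) ^ 2) := by
        nlinarith [sq_nonneg (|v - x| - 1), sq_abs (v - x), abs_nonneg (v - x)]
      nlinarith
    calc |k v| * (|2 * c * (v - x)| * exp (-c * (v - x) ^ 2))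
        ≤ M * ((4 * c * (1 + (v - x) ^ 2)) * exp (-c * (v - x) ^ 2)) := by
          gcongr
          exact hM v
      _ = _ := by ring
  · exact hk.mul (by fun_prop : Continuous fun v : ℝ =>
      (4 * c ^ 2 * (v - x) ^ 2 - 2 * c) * exp (-c * (v - x) ^ 2)).aestronglyMeasurable
  · rw [Metric.mem_ball, Real.dist_eq] at hy
    rw [norm_mul, norm_mul, Real.norm_eq_abs, Real.norm_eq_abs, Real.norm_eq_abs,
      abs_of_pos (exp_pos _)]
    have hy2 : (y - x) ^ 2 ≤ 1 := by
      have := abs_lt.mp hy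
      nlinarith [abs_nonneg (y - x), sq_abs (y - x)]
    have e1 : exp (-c * (v - y) ^ 2) ≤ exp c * exp (-(c / 2) * (v - x) ^ 2) := by
      rw [← exp_add]
      apply exp_le_exp.mpr
      have : (v - y) ^ 2 ≥ (v - x) ^ 2 / 2 - (y - x) ^ 2 := by nlinarith [sq_nonneg (v - x - 2 * (y - x))]
      nlinarith
    have e3 : (v - y) ^ 2 ≤ 2 * (v - x) ^ 2 + 2 := by nlinarith [sq_nonneg (v - x + (y - x))]
    have e2 : |4 * c ^ 2 * (v - y) ^ 2 - 2 * c| ≤ (8 * c ^ 2 + 2 * c) * (1 + (v - x) ^ 2) := by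
      rw [abs_le]
      have hc2 : 0 < c ^ 2 := by positivity
      constructor
      · nlinarith [sq_nonneg (v - x), sq_nonneg (v - y), mul_nonneg hc2.le (sq_nonneg (v - y)),
          mul_nonneg hc2.le (sq_nonneg (v - x)), mul_nonneg hc.le (sq_nonneg (v - x))]
      · nlinarith [mul_le_mul_of_nonneg_left e3 hc2.le, mul_nonneg hc.le (sq_nonneg (v - x))]
    calc |k v| * (|4 * c ^ 2 * (v - y) ^ 2 - 2 * c| * exp (-c * (v - y) ^ 2))
        ≤ M * (((8 * c ^ 2 + 2 * c) * (1 + (v - x) ^ 2)) *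
          (exp c * exp (-(c / 2) * (v - x) ^ 2))) := by
          gcongr
          exact hM v
      _ = _ := by ring
  · have h1 : HasDerivAt (fun y : ℝ => -c * (v - y) ^ 2) (2 * c * (v - y)) y := by
      have := (((hasDerivAt_id y).const_sub v).pow 2).const_mul (-c)
      refine this.congr_deriv ?_
      simp
      ring
    have h2 : HasDerivAt (fun y : ℝ => 2 * c * (v - y)) (-(2 * c)) y := by
      have := ((hasDerivAt_id y).const_sub v).const_mul (2 * c)
      refine this.congr_deriv ?_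
      ring
    refine ((h2.mul h1.exp).const_mul (k v)).congr_deriv ?_
    ring

/-- Derivative in time of the unnormalised Gaussian integral. -/
theorem hasDerivAt_gauss_t {τ : ℝ} (hτ : 0 < τ) {k : ℝ → ℝ} (hk : AEStronglyMeasurable k)
    {M : ℝ} (hM : ∀ v, |k v| ≤ M) (x : ℝ) :
    Integrable (fun v => k v * ((v - x) ^ 2 / (2 * τ ^ 2) * exp (-(2 * τ)⁻¹ * (v - x) ^ 2))) ∧
    HasDerivAt (fun τ => ∫ v, k v * exp (-(2 * τ)⁻¹ * (v - x) ^ 2))
      (∫ v, k v * ((v - x) ^ 2 / (2 * τ ^ 2) * exp (-(2 * τ)⁻¹ * (v - x) ^ 2))) τ := by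
  have hM0 : 0 ≤ M := (abs_nonneg _).trans (hM 0)
  have hb : Integrable (fun v : ℝ => (M * (2 / τ ^ 2)) * (1 + (v - x) ^ 2) *
      exp (-(4 * τ)⁻¹ * (v - x) ^ 2)) := integrable_bound (by positivity) _ _
  have hb1 : Integrable (fun v : ℝ => M * (1 + (v - x) ^ 2) *
      exp (-(2 * τ)⁻¹ * (v - x) ^ 2)) := integrable_bound (by positivity) _ _
  have hnhds : Ioo (τ / 2) (2 * τ) ∈ 𝓝 τ := Ioo_mem_nhds (by linarith) (by linarith)
  refine (hasDerivAt_integral_of_dominated_loc_of_deriv_le (μ := volume) (𝕜 := ℝ) (E := ℝ)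
    (F := fun (τ v : ℝ) => k v * exp (-(2 * τ)⁻¹ * (v - x) ^ 2))
    (F' := fun (τ v : ℝ) => k v * ((v - x) ^ 2 / (2 * τ ^ 2) * exp (-(2 * τ)⁻¹ * (v - x) ^ 2)))
    hnhds
    (Eventually.of_forall fun y => ?_) ?_ ?_ (Eventually.of_forall fun v y hy => ?_) hb
    (Eventually.of_forall fun v y hy => ?_))
  · exact hk.mul (by fun_prop :
      Continuous fun v : ℝ => exp (-(2 * y)⁻¹ * (v - x) ^ 2)).aestronglyMeasurable
  · refine hb1.mono' (hk.mul (by fun_prop :
      Continuous fun v : ℝ => exp (-(2 * τ)⁻¹ * (v - x) ^ 2)).aestronglyMeasurable)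
      (Eventually.of_forall fun v => ?_)
    rw [norm_mul, Real.norm_eq_abs, Real.norm_eq_abs, abs_of_pos (exp_pos _)]
    gcongr
    calc |k v| ≤ M := hM v
      _ ≤ M * (1 + (v - x) ^ 2) := by nlinarith [sq_nonneg (v - x)]
  · exact hk.mul (by fun_prop : Continuous fun v : ℝ =>
      (v - x) ^ 2 / (2 * τ ^ 2) * exp (-(2 * τ)⁻¹ * (v - x) ^ 2)).aestronglyMeasurable
  · have hy0 : 0 < y := by have := hy.1; linarith
    rw [norm_mul, norm_mul, Real.norm_eq_abs, Real.norm_eq_abs, Real.norm_eq_abs,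
      abs_of_pos (exp_pos _)]
    have e1 : exp (-(2 * y)⁻¹ * (v - x) ^ 2) ≤ exp (-(4 * τ)⁻¹ * (v - x) ^ 2) := by
      apply exp_le_exp.mpr
      have h1 : (4 * τ)⁻¹ ≤ (2 * y)⁻¹ := by
        apply inv_anti₀ (by positivity)
        have := hy.2; linarith
      nlinarith [mul_le_mul_of_nonneg_right h1 (sq_nonneg (v - x))]
    have e2 : |(v - x) ^ 2 / (2 * y ^ 2)| ≤ 2 / τ ^ 2 * (1 + (v - x) ^ 2) := by
      rw [abs_of_nonneg (by positivity)]
      have h1 : 1 / (2 * y ^ 2) ≤ 2 / τ ^ 2 := by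
        rw [div_le_div_iff₀ (by positivity) (by positivity)]
        have := hy.1
        nlinarith
      calc (v - x) ^ 2 / (2 * y ^ 2) = 1 / (2 * y ^ 2) * (v - x) ^ 2 := by ring
        _ ≤ 2 / τ ^ 2 * (1 + (v - x) ^ 2) := by
          gcongr
          linarith
    calc |k v| * (|(v - x) ^ 2 / (2 * y ^ 2)| * exp (-(2 * y)⁻¹ * (v - x) ^ 2))
        ≤ M * ((2 / τ ^ 2 * (1 + (v - x) ^ 2)) * exp (-(4 * τ)⁻¹ * (v - x) ^ 2)) := by
          gcongr
          exact hM v
      _ = _ := by ring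
  · have hy0 : 0 < y := by have := hy.1; linarith
    have h1 : HasDerivAt (fun y : ℝ => -(2 * y)⁻¹ * (v - x) ^ 2)
        ((v - x) ^ 2 / (2 * y ^ 2)) y := by
      have := ((((hasDerivAt_id y).const_mul 2).inv (by simp; positivity)).neg).mul_const
        ((v - x) ^ 2)
      refine this.congr_deriv ?_
      simp
      field_simp
    refine (h1.exp.const_mul (k v)).congr_deriv ?_
    ring

theorem integrable_gauss {c : ℝ} (hc : 0 < c) {k : ℝ → ℝ} (hk : AEStronglyMeasurable k)
    {M : ℝ} (hM : ∀ v, |k v| ≤ M) (x : ℝ) :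
    Integrable (fun v => k v * exp (-c * (v - x) ^ 2)) := by
  have hM0 : 0 ≤ M := (abs_nonneg _).trans (hM 0)
  have hb1 : Integrable (fun v : ℝ => M * (1 + (v - x) ^ 2) *
      exp (-c * (v - x) ^ 2)) := integrable_bound (by positivity) _ _
  refine hb1.mono' (hk.mul (by fun_prop :
      Continuous fun v : ℝ => exp (-c * (v - x) ^ 2)).aestronglyMeasurable)
      (Eventually.of_forall fun v => ?_)
  rw [norm_mul, Real.norm_eq_abs, Real.norm_eq_abs, abs_of_pos (exp_pos _)]
  gcongr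
  calc |k v| ≤ M := hM v
    _ ≤ M * (1 + (v - x) ^ 2) := by nlinarith [sq_nonneg (v - x)]

/-- The heat equation for `heat k`. -/
theorem heat_derivs {k : ℝ → ℝ} (hk : AEStronglyMeasurable k) {M : ℝ} (hM : ∀ v, |k v| ≤ M)
    {τ : ℝ} (hτ : 0 < τ) :
    ∃ W1 W2 : ℝ → ℝ, (∀ x, HasDerivAt (heat k τ) (W1 x) x) ∧ (∀ x, HasDerivAt W1 (W2 x) x) ∧
      ∀ x, HasDerivAt (fun τ => heat k τ x) (W2 x / 2) τ := by
  set c : ℝ := (2 * τ)⁻¹ with hc
  have hc0 : 0 < c := by positivity
  set A : ℝ := (√(2 * π * τ))⁻¹ with hA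
  refine ⟨fun x => A * ∫ v, k v * (2 * c * (v - x) * exp (-c * (v - x) ^ 2)),
    fun x => A * ∫ v, k v * ((4 * c ^ 2 * (v - x) ^ 2 - 2 * c) * exp (-c * (v - x) ^ 2)),
    fun x => ?_, fun x => (hasDerivAt_gauss_xx hc0 hk hM x).const_mul A, fun x => ?_⟩
  · have h1 := (hasDerivAt_gauss_x hc0 hk hM x).const_mul A
    refine h1.congr_of_eventuallyEq (Eventually.of_forall fun y => ?_)
    exact heat_eq hτ k y
  · obtain ⟨hint, hder⟩ := hasDerivAt_gauss_t hτ hk hM x
    have hA' : HasDerivAt (fun τ : ℝ => (√(2 * π * τ))⁻¹) (-A / (2 * τ)) τ := by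
      have h0 : HasDerivAt (fun τ : ℝ => 2 * π * τ) (2 * π) τ := by
        simpa using (hasDerivAt_id τ).const_mul (2 * π)
      have h1 := (h0.sqrt (by positivity)).inv (by positivity)
      refine h1.congr_deriv ?_
      have hs : √(2 * π * τ) ^ 2 = 2 * π * τ := Real.sq_sqrt (by positivity)
      have hs0 : 0 < √(2 * π * τ) := by positivity
      rw [hA, hs]
      field_simp
    have h2 := hA'.mul hder
    have h3 : HasDerivAt (fun τ => heat k τ x)
        (-A / (2 * τ) * (∫ v, k v * exp (-(2 * τ)⁻¹ * (v - x) ^ 2)) +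
          A * ∫ v, k v * ((v - x) ^ 2 / (2 * τ ^ 2) * exp (-(2 * τ)⁻¹ * (v - x) ^ 2))) τ := by
      refine h2.congr_of_eventuallyEq ?_
      filter_upwards [lt_mem_nhds hτ] with y hy
      exact heat_eq hy k x
    refine h3.congr_deriv ?_
    rw [← hc]
    have hi2 := integrable_gauss hc0 hk hM x
    have hexp : (fun v => k v * ((4 * c ^ 2 * (v - x) ^ 2 - 2 * c) * exp (-c * (v - x) ^ 2))) =
        fun v => 2 * (k v * ((v - x) ^ 2 / (2 * τ ^ 2) * exp (-c * (v - x) ^ 2))) -
          (1 / τ) * (k v * exp (-c * (v - x) ^ 2)) := by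
      ext v
      have : 4 * c ^ 2 * (v - x) ^ 2 - 2 * c = 2 * ((v - x) ^ 2 / (2 * τ ^ 2)) - 1 / τ := by
        rw [hc]; field_simp; ring
      rw [this]; ring
    beta_reduce
    rw [← hc] at hint
    rw [hexp, integral_sub (hint.const_mul 2) (hi2.const_mul _), integral_const_mul,
      integral_const_mul]
    generalize (∫ v, k v * exp (-c * (v - x) ^ 2)) = I1
    generalize (∫ v, k v * ((v - x) ^ 2 / (2 * τ ^ 2) * exp (-c * (v - x) ^ 2))) = I2
    field_simp
    ring

theorem continuous_heat {k : ℝ → ℝ} (hk : Continuous k) {M : ℝ} (hM : ∀ v, |k v| ≤ M) :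
    Continuous (fun p : ℝ × ℝ => heat k p.1 p.2) := by
  unfold heat
  refine continuous_of_dominated (bound := fun _ => M) (fun p => ?_) (fun p => ?_)
    (integrable_const M) (Eventually.of_forall fun s => ?_)
  · exact (by fun_prop : Continuous fun s : ℝ => k (p.2 + √p.1 * s)).aestronglyMeasurable
  · exact Eventually.of_forall fun s => hM _
  · fun_prop

theorem heat_zero (k : ℝ → ℝ) (x : ℝ) : heat k 0 x = k x := by
  unfold heat; simp

theorem heat_mem_Icc {k : ℝ → ℝ} (hk : Continuous k) {a b : ℝ} (h : ∀ v, k v ∈ Icc a b)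
    (τ x : ℝ) : heat k τ x ∈ Icc a b := by
  have hM : ∀ v, |k v| ≤ max |a| |b| := fun v => by
    rw [abs_le]
    have := h v
    constructor
    · have h1 := neg_abs_le a
      have h2 := le_max_left |a| |b|
      linarith [this.1]
    · have h1 := le_abs_self b
      have h2 := le_max_right |a| |b|
      linarith [this.2]
  have hint : Integrable (fun s => k (x + √τ * s)) (gaussianReal 0 1) :=
    Integrable.of_bound (by fun_prop : Continuous fun s : ℝ =>
      k (x + √τ * s)).aestronglyMeasurable (max |a| |b|) (Eventually.of_forall fun s => hM _)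
  unfold heat
  constructor
  · have := integral_mono (μ := gaussianReal 0 1) (integrable_const a) hint (fun s => (h _).1)
    simpa using this
  · have := integral_mono (μ := gaussianReal 0 1) hint (integrable_const b) (fun s => (h _).2)
    simpa using this

theorem tendsto_heat {k : ℝ → ℝ} (hk : Continuous k) {M : ℝ} (hM : ∀ v, |k v| ≤ M) {l : ℝ}
    (hl : Tendsto k (comap (fun x : ℝ => |x|) atTop) (𝓝 l)) :
    Tendsto (fun p : ℝ × ℝ => heat k p.1 p.2)
      (𝓟 (Icc 0 1) ×ˢ comap (fun x : ℝ => |x|) atTop) (𝓝 l) := by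
  have h0 : l = ∫ _ : ℝ, l ∂(gaussianReal 0 1) := by simp
  rw [h0]
  unfold heat
  refine tendsto_integral_filter_of_dominated_convergence (fun _ => M)
    (Eventually.of_forall fun p => ?_) (Eventually.of_forall fun p => ?_) (integrable_const M)
    (Eventually.of_forall fun s => ?_)
  · exact (by fun_prop : Continuous fun s : ℝ => k (p.2 + √p.1 * s)).aestronglyMeasurable
  · exact Eventually.of_forall fun s => hM _
  · refine hl.comp ?_
    rw [tendsto_comap_iff]
    have h1 : Tendsto (fun p : ℝ × ℝ => |p.2| - |s|)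
        (𝓟 (Icc 0 1) ×ˢ comap (fun x : ℝ => |x|) atTop) atTop := by
      have h2 : Tendsto (fun p : ℝ × ℝ => |p.2|)
          (𝓟 (Icc 0 1) ×ˢ comap (fun x : ℝ => |x|) atTop) atTop :=
        tendsto_comap.comp tendsto_snd
      exact tendsto_atTop_add_const_right _ (-|s|) h2
    refine tendsto_atTop_mono' _ ?_ h1
    have h3 : ∀ᶠ p : ℝ × ℝ in (𝓟 (Icc (0 : ℝ) 1) ×ˢ comap (fun x : ℝ => |x|) atTop),
        p.1 ∈ Icc (0 : ℝ) 1 := tendsto_fst.eventually (mem_principal_self _)
    filter_upwards [h3] with p hp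
    simp only [Function.comp]
    have h4 : √p.1 ≤ 1 := by
      rw [Real.sqrt_le_one]
      exact hp.2
    have h5 : |√p.1 * s| ≤ |s| := by
      rw [abs_mul, abs_of_nonneg (Real.sqrt_nonneg _)]
      nlinarith [abs_nonneg s]
    have h6 : |p.2| ≤ |p.2 + √p.1 * s| + |√p.1 * s| := by
      have := abs_sub (p.2 + √p.1 * s) (√p.1 * s)
      simpa using this
    linarith

end Vale.Agent.P226E
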