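import Mathlib

open MeasureTheory ProbabilityTheory Real Set Filter Topology

namespace Vale.Agent.P226E

/-- The standard Gaussian density. -/
noncomputable def gd (x : ℝ) : ℝ := (√(2 * π))⁻¹ * exp (-x ^ 2 / 2)

/-- The standard normal distribution function. -/
noncomputable def Phi (x : ℝ) : ℝ := ∫ t in Iic x, gd t

/-- The inverse of the standard normal distribution function. -/
noncomputable def PhiInv (p : ℝ) : ℝ := Function.invFun Phi p

theorem gd_pos (x : ℝ) : 0 < gd x := by unfold gd; positivity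

theorem gd_eq (x : ℝ) : gd x = gaussianPDFReal 0 1 x := by
  unfold gd gaussianPDFReal
  simp

theorem continuous_gd : Continuous gd := by unfold gd; fun_prop

theorem integrable_gd : Integrable gd := by
  have h := integrable_gaussianPDFReal 0 1
  refine h.congr (Eventually.of_forall fun x => ?_)
  exact (gd_eq x).symm

theorem integral_gd : ∫ x, gd x = 1 := by
  have h := integral_gaussianPDFReal_eq_one 0 (v := 1) one_ne_zero
  simp_rw [gd_eq]
  exact h

theorem hasDerivAt_gd (x : ℝ) : HasDerivAt gd (-x * gd x) x := by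
  unfold gd
  have h1 : HasDerivAt (fun x : ℝ => -x ^ 2 / 2) (-x) x := by
    have := ((hasDerivAt_id x).pow 2).neg.div_const 2
    refine this.congr_deriv ?_
    simp
    ring
  have h2 := (h1.exp).const_mul (√(2 * π))⁻¹
  refine h2.congr_deriv ?_
  ring

theorem Phi_sub (a b : ℝ) : Phi b - Phi a = ∫ x in a..b, gd x :=
  intervalIntegral.integral_Iic_sub_Iic integrable_gd.integrableOn integrable_gd.integrableOn

theorem hasDerivAt_Phi (x : ℝ) : HasDerivAt Phi (gd x) x := by
  have h1 : HasDerivAt (fun b => Phi 0 + ∫ t in (0 : ℝ)..b, gd t) (gd x) x :=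
    (intervalIntegral.integral_hasDerivAt_right (continuous_gd.intervalIntegrable 0 x)
      (continuous_gd.stronglyMeasurableAtFilter _ _) continuous_gd.continuousAt).const_add _
  refine h1.congr_of_eventuallyEq (Eventually.of_forall fun b => ?_)
  have := Phi_sub 0 b
  simp only
  linarith

theorem continuous_Phi : Continuous Phi :=
  continuous_iff_continuousAt.mpr fun x => (hasDerivAt_Phi x).continuousAt

theorem strictMono_Phi : StrictMono Phi :=
  strictMono_of_hasDerivAt_pos hasDerivAt_Phi gd_pos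

theorem tendsto_Phi_atTop : Tendsto Phi atTop (𝓝 1) := by
  have h1 := intervalIntegral_tendsto_integral_Ioi 0 integrable_gd.integrableOn tendsto_id
  have h2 := h1.const_add (Phi 0)
  have h3 : Phi 0 + ∫ x in Ioi 0, gd x = 1 := by
    unfold Phi
    rw [intervalIntegral.integral_Iic_add_Ioi integrable_gd.integrableOn
      integrable_gd.integrableOn, integral_gd]
  rw [h3] at h2
  refine h2.congr fun x => ?_
  have := Phi_sub 0 x
  simp only [id]; linarith

theorem tendsto_Phi_atBot : Tendsto Phi atBot (𝓝 0) := by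
  have h1 := intervalIntegral_tendsto_integral_Iic 0 integrable_gd.integrableOn tendsto_id
  have h2 := h1.const_sub (Phi 0)
  have h3 : Phi 0 - ∫ x in Iic 0, gd x = 0 := by
    unfold Phi; simp
  rw [h3] at h2
  refine h2.congr fun x => ?_
  have := Phi_sub x 0
  simp only [id]; linarith

theorem Phi_pos (x : ℝ) : 0 < Phi x := by
  have h1 : 0 ≤ Phi (x - 1) := by
    unfold Phi
    exact setIntegral_nonneg measurableSet_Iic fun t _ => (gd_pos t).le
  exact lt_of_le_of_lt h1 (strictMono_Phi (by linarith))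

theorem Phi_lt_one (x : ℝ) : Phi x < 1 := by
  have h1 : Phi (x + 1) ≤ 1 :=
    ge_of_tendsto tendsto_Phi_atTop (eventually_ge_atTop (x + 1) |>.mono fun y hy =>
      strictMono_Phi.monotone hy)
  exact lt_of_lt_of_le (strictMono_Phi (by linarith)) h1

theorem Phi_mem (x : ℝ) : Phi x ∈ Ioo (0 : ℝ) 1 := ⟨Phi_pos x, Phi_lt_one x⟩

theorem Phi_surj {p : ℝ} (hp : p ∈ Ioo (0 : ℝ) 1) : ∃ x, Phi x = p := by
  obtain ⟨a, ha⟩ := (tendsto_Phi_atBot.eventually (gt_mem_nhds hp.1)).exists
  obtain ⟨b, hb⟩ := (tendsto_Phi_atTop.eventually (lt_mem_nhds hp.2)).exists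
  have hab : a ≤ b := (strictMono_Phi.lt_iff_lt.mp (ha.trans hb)).le
  obtain ⟨x, _, hx⟩ := intermediate_value_Icc hab continuous_Phi.continuousOn ⟨ha.le, hb.le⟩
  exact ⟨x, hx⟩

@[simp] theorem PhiInv_Phi (x : ℝ) : PhiInv (Phi x) = x :=
  Function.leftInverse_invFun strictMono_Phi.injective x

theorem Phi_PhiInv {p : ℝ} (hp : p ∈ Ioo (0 : ℝ) 1) : Phi (PhiInv p) = p :=
  Function.invFun_eq (Phi_surj hp)

theorem PhiInv_strictMonoOn : StrictMonoOn PhiInv (Ioo 0 1) := by
  intro p hp q hq hpq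
  rw [← strictMono_Phi.lt_iff_lt, Phi_PhiInv hp, Phi_PhiInv hq]
  exact hpq

theorem PhiInv_continuousAt {p : ℝ} (hp : p ∈ Ioo (0 : ℝ) 1) : ContinuousAt PhiInv p := by
  refine continuousAt_of_monotoneOn_of_image_mem_nhds PhiInv_strictMonoOn.monotoneOn
    (isOpen_Ioo.mem_nhds hp) ?_
  have : PhiInv '' Ioo 0 1 = univ := by
    ext x
    simp only [mem_image, mem_univ, iff_true]
    exact ⟨Phi x, Phi_mem x, PhiInv_Phi x⟩
  rw [this]
  exact univ_mem

theorem PhiInv_continuousOn : ContinuousOn PhiInv (Ioo 0 1) := fun _ hp =>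
  (PhiInv_continuousAt hp).continuousWithinAt

theorem hasDerivAt_PhiInv {p : ℝ} (hp : p ∈ Ioo (0 : ℝ) 1) :
    HasDerivAt PhiInv (gd (PhiInv p))⁻¹ p := by
  refine HasDerivAt.of_local_left_inverse (PhiInv_continuousAt hp) (hasDerivAt_Phi _)
    (gd_pos _).ne' ?_
  filter_upwards [isOpen_Ioo.mem_nhds hp] with q hq
  exact Phi_PhiInv hq

theorem PhiInv_le_iff {p x : ℝ} (hp : p ∈ Ioo (0 : ℝ) 1) : PhiInv p ≤ x ↔ p ≤ Phi x := by
  rw [← strictMono_Phi.le_iff_le, Phi_PhiInv hp]

theorem le_PhiInv_iff {p x : ℝ} (hp : p ∈ Ioo (0 : ℝ) 1) : x ≤ PhiInv p ↔ Phi x ≤ p := by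
  rw [← strictMono_Phi.le_iff_le, Phi_PhiInv hp]

theorem Phi_eq_measure (x : ℝ) : Phi x = (gaussianReal 0 1).real (Iic x) := by
  rw [measureReal_def, gaussianReal_apply_eq_integral _ one_ne_zero,
    ENNReal.toReal_ofReal (integral_nonneg fun _ => gaussianPDFReal_nonneg _ _ _)]
  unfold Phi
  simp_rw [gd_eq]

theorem Phi_neg (x : ℝ) : Phi (-x) = 1 - Phi x := by
  have h1 : Phi (-x) = ∫ t in Ioi x, gd t := by
    unfold Phi
    have := integral_comp_neg_Iic (-x) gd
    rw [neg_neg] at this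
    rw [← this]
    congr 1
    ext t
    unfold gd
    simp
  rw [h1]
  have h2 : Phi x + ∫ t in Ioi x, gd t = 1 := by
    unfold Phi
    rw [intervalIntegral.integral_Iic_add_Ioi integrable_gd.integrableOn
      integrable_gd.integrableOn, integral_gd]
  linarith

end Vale.Agent.P226E
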