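import Vale.Agent.Lib.P226E.Tangent

open MeasureTheory ProbabilityTheory Real Set Filter Topology

namespace Vale.Agent.P226E

/-! ### One dimensional computations -/

theorem gaussianReal_Ioi (a : ℝ) : (gaussianReal 0 1).real (Ioi a) = Phi (-a) := by
  have h1 : (Iic a)ᶜ = Ioi a := compl_Iic
  rw [← h1, measureReal_compl measurableSet_Iic, Phi_neg, Phi_eq_measure]
  simp

theorem tendsto_gd_atTop : Tendsto gd atTop (𝓝 0) := by
  unfold gd
  have h1 : Tendsto (fun x : ℝ => -x ^ 2 / 2) atTop atBot := by
    have h3 : Tendsto (fun x : ℝ => x ^ 2 / 2) atTop atTop :=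
      (tendsto_pow_atTop (α := ℝ) (n := 2) (by norm_num)).atTop_div_const (by norm_num)
    refine (tendsto_neg_atTop_atBot.comp h3).congr fun x => ?_
    simp only [Function.comp]; ring
  have h4 := (tendsto_exp_atBot.comp h1).const_mul (√(2 * π))⁻¹
  simpa using h4

theorem gd_le_one (x : ℝ) : gd x ≤ 1 := by
  unfold gd
  have h1 : (√(2 * π))⁻¹ ≤ 1 := by
    apply inv_le_one_of_one_le₀
    rw [Real.one_le_sqrt]
    have := Real.pi_gt_three
    linarith
  have h2 : exp (-x ^ 2 / 2) ≤ 1 := by
    rw [Real.exp_le_one_iff]
    have := sq_nonneg x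
    linarith
  have h3 : 0 < exp (-x ^ 2 / 2) := exp_pos _
  calc (√(2 * π))⁻¹ * exp (-x ^ 2 / 2) ≤ 1 * 1 := by gcongr
    _ = 1 := one_mul 1

theorem integral_Ioi_id (a : ℝ) :
    ∫ s in Ioi a, s ∂(gaussianReal 0 1) = gd a := by
  rw [gaussianReal_of_var_ne_zero 0 one_ne_zero,
    setIntegral_withDensity_eq_setIntegral_toReal_smul (measurable_gaussianPDF 0 1)
      (Eventually.of_forall fun x => gaussianPDF_lt_top) _ measurableSet_Ioi]
  have h1 : ∀ x : ℝ, (gaussianPDF 0 1 x).toReal • x = x * gd x := by
    intro x
    rw [toReal_gaussianPDF, ← gd_eq, smul_eq_mul]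
    ring
  simp_rw [h1]
  have hint : Integrable (fun x : ℝ => x * gd x) := by
    have h2 := (integrable_mul_exp_neg_mul_sq (b := 1 / 2) (by norm_num)).const_mul (√(2 * π))⁻¹
    refine h2.congr (Eventually.of_forall fun x => ?_)
    unfold gd
    simp only
    rw [show -(1 / 2) * x ^ 2 = -x ^ 2 / 2 by ring]
    ring
  have h3 := integral_Ioi_of_hasDerivAt_of_tendsto' (a := a) (f := fun x => -gd x)
    (f' := fun x => x * gd x) (m := 0) (fun x _ => by
      refine (hasDerivAt_gd x).neg.congr_deriv ?_
      ring) hint.integrableOn (by simpa using tendsto_gd_atTop.neg)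
  rw [h3]; ring

/-! ### Splitting off one coordinate -/

/-- The standard Gaussian measure splits along a unit vector. -/
theorem stdGaussian_split {E : Type*} [NormedAddCommGroup E] [InnerProductSpace ℝ E]
    [FiniteDimensional ℝ E] [MeasurableSpace E] [BorelSpace E] {e : E} (he : ‖e‖ = 1) :
    ∃ (n : ℕ) (L : (Fin n → ℝ) →ₗ[ℝ] E), (∀ x, inner ℝ (L x) e = (0 : ℝ)) ∧
      stdGaussian E = ((gaussianReal 0 1).prod (gaussPi n)).map (fun p => p.1 • e + L p.2) := by
  have hE : 0 < Module.finrank ℝ E := by
    rw [Module.finrank_pos_iff_exists_ne_zero]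
    exact ⟨e, by intro h; rw [h, norm_zero] at he; exact zero_ne_one he⟩
  obtain ⟨n, hn⟩ : ∃ n, Module.finrank ℝ E = n + 1 := ⟨Module.finrank ℝ E - 1, by omega⟩
  have hon : Orthonormal ℝ (({0} : Set (Fin (n + 1))).domRestrict (fun _ => e)) := by
    constructor
    · intro i; exact he
    · intro i j hij
      exfalso; apply hij
      ext
      have h1 := i.2
      have h2 := j.2
      simp only [mem_singleton_iff] at h1 h2
      rw [h1, h2]
  obtain ⟨b, hb⟩ := hon.exists_orthonormalBasis_extension_of_card_eq
    (by rw [hn, Fintype.card_fin]) 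
  have hb0 : b 0 = e := hb 0 rfl
  refine ⟨n, Fintype.linearCombination ℝ (fun i : Fin n => b i.succ), fun x => ?_, ?_⟩
  · rw [Fintype.linearCombination_apply, sum_inner]
    refine Finset.sum_eq_zero fun i _ => ?_
    rw [inner_smul_left, ← hb0, b.inner_eq_zero (Fin.succ_ne_zero i)]
    simp
  · rw [stdGaussian_eq_map_pi_orthonormalBasis b]
    have hmp := (measurePreserving_piFinSuccAbove (n := n)
      (fun _ : Fin (n + 1) => gaussianReal 0 1) 0).symm
    rw [← hmp.map_eq, Measure.map_map (by fun_prop) hmp.measurable]
    congr 1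
    ext p
    simp only [Function.comp]
    rw [Fin.sum_univ_succ, hb0, Fintype.linearCombination_apply]
    rfl

/-- Integration against the standard Gaussian measure along a unit vector. -/
theorem integral_split {E : Type*} [NormedAddCommGroup E] [InnerProductSpace ℝ E]
    [FiniteDimensional ℝ E] [MeasurableSpace E] [BorelSpace E] {e : E} {n : ℕ}
    {L : (Fin n → ℝ) →ₗ[ℝ] E}
    (hL : stdGaussian E = ((gaussianReal 0 1).prod (gaussPi n)).map (fun p => p.1 • e + L p.2))
    {f : E → ℝ} (hf : Integrable f (stdGaussian E)) :
    ∫ x, f x ∂(stdGaussian E) =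
      ∫ y, ∫ s, f (s • e + L y) ∂(gaussianReal 0 1) ∂(gaussPi n) := by
  have hLc : Continuous L := LinearMap.continuous_of_finiteDimensional L
  have hmeas : Measurable (fun p : ℝ × (Fin n → ℝ) => p.1 • e + L p.2) := by
    have : Continuous (fun p : ℝ × (Fin n → ℝ) => p.1 • e + L p.2) := by fun_prop
    exact this.measurable
  have hf' : Integrable (fun p : ℝ × (Fin n → ℝ) => f (p.1 • e + L p.2))
      ((gaussianReal 0 1).prod (gaussPi n)) := by
    rw [hL] at hf
    exact hf.comp_measurable hmeas
  have h1 : ∫ x, f x ∂(stdGaussian E) =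
      ∫ p : ℝ × (Fin n → ℝ), f (p.1 • e + L p.2) ∂((gaussianReal 0 1).prod (gaussPi n)) := by
    rw [hL] at hf ⊢
    rw [integral_map hmeas.aemeasurable hf.aestronglyMeasurable]
  rw [h1, integral_prod_symm _ hf']

/-! ### Functions that grow with unit speed along a direction -/

variable {E : Type*} [NormedAddCommGroup E] [InnerProductSpace ℝ E]
    [FiniteDimensional ℝ E] [MeasurableSpace E] [BorelSpace E]

/-- All the one dimensional information on a function growing with unit speed along `ξ`. -/
theorem unit_speed {U : E → ℝ} (hUc : Continuous U) {ξ : E}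
    (hξ : ∀ (x : E) (t : ℝ), U (x + t • ξ) = U x + t) :
    (∀ t, stdGaussian E {x | U x = t} = 0) ∧
    (∀ t, (stdGaussian E).real {x | t < U x} ∈ Ioo (0 : ℝ) 1) ∧
    (∀ t, HasDerivAt (fun t => (stdGaussian E).real {x | t < U x})
      (-∫ x in {x | t < U x}, inner ℝ x ξ ∂(stdGaussian E)) t) := by
  have hξ0 : ξ ≠ 0 := by
    intro h
    have := hξ 0 1
    rw [h] at this
    simp at this
  set R : ℝ := ‖ξ‖ with hR
  have hR0 : 0 < R := norm_pos_iff.mpr hξ0
  set e : E := R⁻¹ • ξ with he
  have he1 : ‖e‖ = 1 := by
    rw [he, norm_smul, norm_inv, norm_norm, inv_mul_cancel₀ hR0.ne']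
  obtain ⟨n, L, hLe, hL⟩ := stdGaussian_split he1
  have hLc : Continuous L := LinearMap.continuous_of_finiteDimensional L
  set u : (Fin n → ℝ) → ℝ := fun y => U (L y) with hu
  have huc : Continuous u := hUc.comp hLc
  have hU : ∀ (s : ℝ) (y : Fin n → ℝ), U (s • e + L y) = u y + s / R := by
    intro s y
    have h1 : s • e + L y = L y + (s / R) • ξ := by
      rw [he, smul_smul, add_comm, div_eq_mul_inv]
    rw [h1, hξ]
  have hmeasS : ∀ t, MeasurableSet {x | t < U x} := fun t =>
    measurableSet_lt measurable_const hUc.measurable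
  -- tail probabilities
  have hP : ∀ t, (stdGaussian E).real {x | t < U x} = ∫ y, Phi (R * (u y - t)) ∂(gaussPi n) := by
    intro t
    have h1 : (stdGaussian E).real {x | t < U x} =
        ∫ x, ({x | t < U x} : Set E).indicator (fun _ => (1 : ℝ)) x ∂(stdGaussian E) := by
      rw [integral_indicator (hmeasS t)]
      simp
    rw [h1, integral_split hL ((integrable_const (1 : ℝ)).indicator (hmeasS t))]
    congr 1
    ext y
    have h2 : (fun s : ℝ => ({x | t < U x} : Set E).indicator (fun _ => (1 : ℝ)) (s • e + L y)) =
        (Ioi (R * (t - u y))).indicator (fun _ => (1 : ℝ)) := by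
      ext s
      simp only [indicator, mem_ofPred_eq, mem_Ioi, hU]
      have h3 : t < u y + s / R ↔ R * (t - u y) < s := by
        rw [← sub_lt_iff_lt_add', lt_div_iff₀ hR0, mul_comm]
      simp only [h3]
    rw [h2, integral_indicator measurableSet_Ioi]
    simp only [integral_const, smul_eq_mul, mul_one, measureReal_restrict_apply MeasurableSet.univ,
      univ_inter]
    rw [gaussianReal_Ioi]
    congr 1; ring
  refine ⟨fun t => ?_, fun t => ?_, fun t => ?_⟩
  · have hms : MeasurableSet {x | U x = t} := measurableSet_eq_fun hUc.measurable measurable_const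
    have h1 : (stdGaussian E).real {x | U x = t} = 0 := by
      have h2 : (stdGaussian E).real {x | U x = t} =
          ∫ x, ({x | U x = t} : Set E).indicator (fun _ => (1 : ℝ)) x ∂(stdGaussian E) := by
        rw [integral_indicator hms]
        simp
      rw [h2, integral_split hL ((integrable_const (1 : ℝ)).indicator hms)]
      have h3 : ∀ y, ∫ s, ({x | U x = t} : Set E).indicator (fun _ => (1 : ℝ)) (s • e + L y)
          ∂(gaussianReal 0 1) = 0 := by
        intro y
        have h4 : (fun s : ℝ => ({x | U x = t} : Set E).indicator (fun _ => (1 : ℝ))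
            (s • e + L y)) = ({R * (t - u y)} : Set ℝ).indicator (fun _ => (1 : ℝ)) := by
          ext s
          simp only [indicator, mem_ofPred_eq, mem_singleton_iff, hU]
          have h5 : u y + s / R = t ↔ s = R * (t - u y) := by
            constructor
            · intro h; field_simp at h; linarith
            · intro h; rw [h]; field_simp; ring
          simp only [h5]
        rw [h4, integral_indicator (measurableSet_singleton _)]
        have h6 : (gaussianReal 0 1).real {R * (t - u y)} = 0 := by
          have := nullSingletonClass_gaussianReal (μ := 0) (v := 1) one_ne_zero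
          rw [measureReal_def, measure_singleton]
          rfl
        simp [measureReal_def] at h6 ⊢
        exact h6
      simp_rw [h3]
      simp
    rw [measureReal_def] at h1
    rcases (ENNReal.toReal_eq_zero_iff _).mp h1 with h | h
    · exact h
    · exact absurd h (measure_ne_top _ _)
  · rw [hP]
    exact integral_Phi_mem (continuous_const.mul (huc.sub continuous_const)).aestronglyMeasurable
  · have hD : HasDerivAt (fun t => ∫ y, Phi (R * (u y - t)) ∂(gaussPi n))
        (∫ y, -(R * gd (R * (u y - t))) ∂(gaussPi n)) t := by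
      refine (hasDerivAt_integral_of_dominated_loc_of_deriv_le (μ := gaussPi n) (𝕜 := ℝ) (E := ℝ)
        (F := fun (t : ℝ) (y : Fin n → ℝ) => Phi (R * (u y - t)))
        (F' := fun (t : ℝ) (y : Fin n → ℝ) => -(R * gd (R * (u y - t)))) (bound := fun _ => R)
        (s := univ) Filter.univ_mem
        (Eventually.of_forall fun t => ?_) ?_ ?_ (Eventually.of_forall fun y t _ => ?_)
        (integrable_const R) (Eventually.of_forall fun y t _ => ?_)).2
      · exact (continuous_Phi.comp (by fun_prop)).aestronglyMeasurable
      · exact Integrable.of_bound (continuous_Phi.comp (by fun_prop)).aestronglyMeasurable 1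
          (Eventually.of_forall fun y => abs_Phi_le _)
      · exact ((continuous_const.mul (continuous_gd.comp (by fun_prop))).neg).aestronglyMeasurable
      · rw [norm_neg, norm_mul, Real.norm_of_nonneg hR0.le, Real.norm_of_nonneg (gd_pos _).le]
        have := gd_le_one (R * (u y - t))
        nlinarith
      · have h1 : HasDerivAt (fun t : ℝ => R * (u y - t)) (-R) t := by
          have := ((hasDerivAt_id t).const_sub (u y)).const_mul R
          refine this.congr_deriv ?_
          ring
        refine ((hasDerivAt_Phi _).comp t h1).congr_deriv ?_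
        ring
    have hM : ∫ x in {x | t < U x}, inner ℝ x ξ ∂(stdGaussian E) =
        ∫ y, R * gd (R * (u y - t)) ∂(gaussPi n) := by
      rw [← integral_indicator (hmeasS t)]
      have hint : Integrable (fun x : E => inner ℝ x ξ) (stdGaussian E) := by
        have h1 : Integrable (fun x : E => x) (stdGaussian E) := IsGaussian.integrable_id
        exact h1.inner_const ξ
      rw [integral_split hL (hint.indicator (hmeasS t))]
      congr 1
      ext y
      have h2 : (fun s : ℝ => ({x | t < U x} : Set E).indicator (fun x => inner ℝ x ξ)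
          (s • e + L y)) = (Ioi (R * (t - u y))).indicator (fun s => R * s) := by
        ext s
        simp only [indicator, mem_ofPred_eq, mem_Ioi, hU]
        have h3 : t < u y + s / R ↔ R * (t - u y) < s := by
          rw [← sub_lt_iff_lt_add', lt_div_iff₀ hR0, mul_comm]
        have h4 : inner ℝ (s • e + L y) ξ = R * s := by
          have h5 : ξ = R • e := by rw [he, smul_smul, mul_inv_cancel₀ hR0.ne', one_smul]
          rw [h5, inner_smul_right, inner_add_left, inner_smul_left, hLe, 
            real_inner_self_eq_norm_sq, he1]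
          simp
        simp only [h3, h4]
      rw [h2, integral_indicator measurableSet_Ioi, integral_const_mul, integral_Ioi_id]
      have h6 : gd (R * (t - u y)) = gd (R * (u y - t)) := by
        unfold gd
        congr 2
        ring
      rw [h6]
    rw [hM, ← integral_neg]
    have hfun : (fun t => (stdGaussian E).real {x | t < U x}) =
        fun t => ∫ y, Phi (R * (u y - t)) ∂(gaussPi n) := funext hP
    rw [hfun]
    exact hD

end Vale.Agent.P226E
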