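import Vale.Agent.Lib.P226E.Ehrhard

open MeasureTheory ProbabilityTheory Real Set Filter Topology

namespace Vale.Agent.P226E

/-- The primitive `x Φ(x) + φ(x)` of `Φ`. -/
theorem hasDerivAt_Psi (x : ℝ) : HasDerivAt (fun x => x * Phi x + gd x) (Phi x) x := by
  have h := ((hasDerivAt_id x).mul (hasDerivAt_Phi x)).add (hasDerivAt_gd x)
  refine h.congr_deriv ?_
  simp only [id]
  ring

theorem tendsto_Psi_atBot : Tendsto (fun x => x * Phi x + gd x) atBot (𝓝 0) := by
  have hg : Tendsto gd atBot (𝓝 0) := by
    unfold gd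
    have h1 : Tendsto (fun x : ℝ => -x ^ 2 / 2) atBot atBot := by
      have h2 : Tendsto (fun x : ℝ => x ^ 2) atBot atTop := by
        have := (tendsto_pow_atTop (α := ℝ) (n := 2) (by norm_num)).comp tendsto_neg_atBot_atTop
        refine this.congr fun x => ?_
        simp
      have h3 : Tendsto (fun x : ℝ => x ^ 2 / 2) atBot atTop := h2.atTop_div_const (by norm_num)
      refine (tendsto_neg_atTop_atBot.comp h3).congr fun x => ?_
      simp only [Function.comp]; ring
    have h4 := (tendsto_exp_atBot.comp h1).const_mul (√(2 * π))⁻¹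
    simpa using h4
  have hx : Tendsto (fun x => x * Phi x) atBot (𝓝 0) := by
    -- for x ≤ 0, |x| Φ(x) ≤ φ(x)
    have hbd : ∀ x : ℝ, x ≤ 0 → |x * Phi x| ≤ gd x := by
      intro x hx
      have h1 : -x * Phi x ≤ gd x := by
        have hint1 : IntegrableOn (fun t => -x * gd t) (Iic x) := (integrable_gd.const_mul _).integrableOn
        have hint2 : IntegrableOn (fun t => -t * gd t) (Iic x) ∧ ∫ t in Iic x, -t * gd t = gd x := by
          have hpos : ∀ t ∈ Iio x, 0 ≤ -t * gd t := fun t ht =>
            mul_nonneg (by have : t < x := ht; linarith) (gd_pos t).le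
          have hi := integrableOn_Iic_of_intervalIntegral_norm_bounded (gd x) x
            (f := fun t => -t * gd t) (l := atBot) (a := id)
            (fun i => ((continuous_neg.mul continuous_gd).intervalIntegrable _ _).1) tendsto_id (by
              filter_upwards [eventually_le_atBot x] with a ha
              have h5 : ∫ t in a..x, ‖-t * gd t‖ = ∫ t in a..x, -t * gd t := by
                refine intervalIntegral.integral_congr_ae ?_
                refine Eventually.of_forall fun t ht => ?_
                rw [uIoc_of_le ha] at ht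
                rw [Real.norm_of_nonneg]
                exact mul_nonneg (by have := ht.2; linarith) (gd_pos t).le
              simp only [id]
              rw [h5, intervalIntegral.integral_eq_sub_of_hasDerivAt
                (fun t _ => hasDerivAt_gd t)
                ((continuous_neg.mul continuous_gd).intervalIntegrable _ _)]
              have := gd_pos a
              linarith)
          refine ⟨hi, ?_⟩
          have := integral_Iic_of_hasDerivAt_of_tendsto' (a := x) (f := gd)
            (f' := fun t => -t * gd t) (m := 0) (fun t _ => hasDerivAt_gd t) hi hg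
          simpa using this
        have h6 : ∫ t in Iic x, -x * gd t ≤ ∫ t in Iic x, -t * gd t := by
          refine setIntegral_mono_on hint1 hint2.1 measurableSet_Iic fun t ht => ?_
          have : t ≤ x := ht
          have := gd_pos t
          nlinarith
        rw [integral_const_mul, hint2.2] at h6
        exact h6
      rw [abs_mul, abs_of_nonpos hx, abs_of_pos (Phi_pos x)]
      exact h1
    refine squeeze_zero_norm' ?_ hg
    filter_upwards [eventually_le_atBot 0] with x hx
    exact hbd x hx
  simpa using hx.add hg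

/-- The integral of `Φ` over a left half line. -/
theorem Psi_eq_integral (α : ℝ) :
    IntegrableOn Phi (Iic α) ∧ ∫ t in Iic α, Phi t = α * Phi α + gd α := by
  have hlim := tendsto_Psi_atBot
  have hint : IntegrableOn Phi (Iic α) := by
    refine integrableOn_Iic_of_intervalIntegral_norm_bounded (α * Phi α + gd α + 1) α
      (l := atBot) (a := id)
      (fun i => (continuous_Phi.intervalIntegrable _ _).1) tendsto_id ?_
    have hev : ∀ᶠ a in atBot, -1 < a * Phi a + gd a := hlim.eventually (lt_mem_nhds (by norm_num))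
    filter_upwards [eventually_le_atBot α, hev] with a ha ha2
    have h5 : ∫ t in a..α, ‖Phi t‖ = ∫ t in a..α, Phi t := by
      congr 1; ext t; exact Real.norm_of_nonneg (Phi_pos t).le
    simp only [id]
    rw [h5, intervalIntegral.integral_eq_sub_of_hasDerivAt (fun t _ => hasDerivAt_Psi t)
      (continuous_Phi.intervalIntegrable _ _)]
    linarith
  refine ⟨hint, ?_⟩
  have := integral_Iic_of_hasDerivAt_of_tendsto' (a := α) (f := fun x => x * Phi x + gd x)
    (f' := Phi) (m := 0) (fun t _ => hasDerivAt_Psi t) hint hlim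
  simpa using this

theorem Psi_nonneg (α : ℝ) : 0 ≤ α * Phi α + gd α := by
  rw [← (Psi_eq_integral α).2]
  exact setIntegral_nonneg measurableSet_Iic fun t _ => (Phi_pos t).le

/-- Gaussian tail integral along a line. -/
theorem integral_tail {c : ℝ} (hc : 0 < c) (α : ℝ) :
    IntegrableOn (fun t => Phi (α - c * t)) (Ioi 0) ∧
      ∫ t in Ioi (0 : ℝ), Phi (α - c * t) = (α * Phi α + gd α) / c := by
  have hder : ∀ t ∈ Ici (0 : ℝ), HasDerivAt
      (fun t => -((α - c * t) * Phi (α - c * t) + gd (α - c * t)) / c) (Phi (α - c * t)) t := by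
    intro t _
    have h1 : HasDerivAt (fun t : ℝ => α - c * t) (-c) t := by
      simpa using ((hasDerivAt_id t).const_mul c).const_sub α
    have h2 := (((hasDerivAt_Psi (α - c * t)).comp t h1).neg).div_const c
    refine h2.congr_deriv ?_
    field_simp
  have hlim : Tendsto (fun t => -((α - c * t) * Phi (α - c * t) + gd (α - c * t)) / c) atTop
      (𝓝 0) := by
    have h1 : Tendsto (fun t : ℝ => α - c * t) atTop atBot :=
      tendsto_atBot_add_const_left _ α
        (tendsto_neg_atTop_atBot.comp (tendsto_id.const_mul_atTop hc))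
    have h2 := ((tendsto_Psi_atBot.comp h1).neg).div_const c
    simpa using h2
  have hpos : ∀ t ∈ Ioi (0 : ℝ), 0 ≤ Phi (α - c * t) := fun t _ => (Phi_pos _).le
  refine ⟨integrableOn_Ioi_deriv_of_nonneg' hder hpos hlim, ?_⟩
  rw [integral_Ioi_of_hasDerivAt_of_nonneg' hder hpos hlim]
  simp
  ring

/-- Tangent line bound for a function that is concave in the `Φ` scale. -/
theorem tangent_bound {P : ℝ → ℝ} {ρ : ℝ} (hP : ∀ t, 0 ≤ t → P t ∈ Ioo (0 : ℝ) 1)
    (hconc : ∀ t, 0 < t → ∀ s ∈ Ioo (0 : ℝ) 1,
      Phi ((1 - s) * PhiInv (P 0) + s * PhiInv (P t)) ≤ P (s * t))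
    (hder : HasDerivWithinAt P (-ρ) (Ici 0) 0) {t : ℝ} (ht : 0 ≤ t) :
    P t ≤ Phi (PhiInv (P 0) - ρ / gd (PhiInv (P 0)) * t) := by
  rcases ht.eq_or_lt with rfl | ht0
  · simp only [mul_zero, sub_zero]
    rw [Phi_PhiInv (hP 0 le_rfl)]
  set α := PhiInv (P 0) with hα
  have hPα : P 0 = Phi α := (Phi_PhiInv (hP 0 le_rfl)).symm
  set β := PhiInv (P t) with hβ
  have hPβ : P t = Phi β := (Phi_PhiInv (hP t ht)).symm
  rw [hPβ]
  refine strictMono_Phi.monotone ?_
  -- compare difference quotients at zero
  have h1 : HasDerivAt (fun s => Phi ((1 - s) * α + s * β)) (gd α * (β - α)) 0 := by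
    have h2 : HasDerivAt (fun s : ℝ => (1 - s) * α + s * β) (β - α) 0 := by
      have := (((hasDerivAt_id (0 : ℝ)).const_sub 1).mul_const α).add
        ((hasDerivAt_id (0 : ℝ)).mul_const β)
      refine this.congr_deriv ?_
      simp; ring
    have h3 : HasDerivAt Phi (gd α) ((1 - (0 : ℝ)) * α + 0 * β) := by
      have := hasDerivAt_Phi α
      simpa using this
    exact h3.comp 0 h2
  have h4 : HasDerivWithinAt (fun s => P (s * t)) (-ρ * t) (Ici 0) 0 := by
    have h5 : HasDerivWithinAt (fun s : ℝ => s * t) t (Ici 0) 0 := by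
      simpa using ((hasDerivAt_id (0 : ℝ)).mul_const t).hasDerivWithinAt
    have h6 : HasDerivWithinAt P (-ρ) (Ici 0) ((fun s : ℝ => s * t) 0) := by simpa using hder
    exact h6.comp (0 : ℝ) h5 (fun s hs => mul_nonneg hs ht)
  have h7 := h4.sub h1.hasDerivWithinAt
  have h8 : 0 ≤ -ρ * t - gd α * (β - α) := by
    have h9 : Tendsto (slope (fun s => P (s * t) - Phi ((1 - s) * α + s * β)) 0) (𝓝[>] 0)
        (𝓝 (-ρ * t - gd α * (β - α))) := by
      have := hasDerivWithinAt_iff_tendsto_slope.mp h7
      refine this.mono_left (nhdsWithin_mono _ fun y hy => ?_)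
      exact ⟨mem_Ici.mpr (le_of_lt (mem_Ioi.mp hy)), ne_of_gt (mem_Ioi.mp hy)⟩
    refine ge_of_tendsto h9 ?_
    have h10 : ∀ᶠ s : ℝ in 𝓝[>] 0, s < 1 :=
      (gt_mem_nhds (show (0 : ℝ) < 1 by norm_num)).filter_mono nhdsWithin_le_nhds
    filter_upwards [h10, self_mem_nhdsWithin] with s hs1 hs2
    have hs0 : (0 : ℝ) < s := hs2
    rw [slope_def_field]
    have h11 := hconc t ht0 s ⟨hs0, hs1⟩
    have h12 : P (0 * t) - Phi ((1 - 0) * α + 0 * β) = 0 := by
      simp [hPα]
    rw [h12]
    have : 0 ≤ P (s * t) - Phi ((1 - s) * α + s * β) := by linarith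
    simp only [sub_zero]
    positivity
  have hg := gd_pos α
  rw [div_mul_eq_mul_div]
  have h13 : β - α ≤ -(ρ * t / gd α) := by
    rw [← neg_div, le_div_iff₀ hg]
    nlinarith
  linarith

/-- Expected positive part of a concave function on Gaussian space, from its boundary density:
if `P(U > 0) = Φ(α)` and `t ↦ P(U > t)` has right derivative `-ρ` at `0`, then
`E U₊ ≤ (φ(α) / ρ) (α Φ(α) + φ(α))`. -/
theorem gain_bound {E : Type*} [NormedAddCommGroup E] [InnerProductSpace ℝ E]
    [FiniteDimensional ℝ E] [MeasurableSpace E] [BorelSpace E] {U : E → ℝ}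
    (hU : ConcaveOn ℝ univ U) (h0 : ∀ t, stdGaussian E {x | U x = t} = 0)
    (hint : Integrable U (stdGaussian E))
    (hP : ∀ t, 0 ≤ t → (stdGaussian E).real {x | t < U x} ∈ Ioo (0 : ℝ) 1) {ρ : ℝ} (hρ : 0 < ρ)
    (hder : HasDerivWithinAt (fun t => (stdGaussian E).real {x | t < U x}) (-ρ) (Ici 0) 0) :
    ∫ x, max (U x) 0 ∂(stdGaussian E) ≤
      gd (PhiInv ((stdGaussian E).real {x | 0 < U x})) / ρ *
        (PhiInv ((stdGaussian E).real {x | 0 < U x}) * (stdGaussian E).real {x | 0 < U x} +
          gd (PhiInv ((stdGaussian E).real {x | 0 < U x}))) := by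
  set P : ℝ → ℝ := fun t => (stdGaussian E).real {x | t < U x} with hPdef
  set α := PhiInv (P 0) with hα
  have hPα : P 0 = Phi α := (Phi_PhiInv (hP 0 le_rfl)).symm
  have hg := gd_pos α
  have hconc : ∀ t, 0 < t → ∀ s ∈ Ioo (0 : ℝ) 1,
      Phi ((1 - s) * PhiInv (P 0) + s * PhiInv (P t)) ≤ P (s * t) := by
    intro t ht s hs
    have h1 := ehrhard_level_std hU h0 (t1 := 0) (t2 := t) (μ := 1 - s) (l := s)
      (by linarith [hs.2]) hs.1.le (by ring) (hP 0 le_rfl) (hP t ht.le)
    simpa using h1
  have hbound : ∀ t, 0 ≤ t → P t ≤ Phi (α - ρ / gd α * t) := fun t ht =>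
    tangent_bound hP hconc hder ht
  have hc : 0 < ρ / gd α := by positivity
  obtain ⟨hi, hv⟩ := integral_tail hc α
  have hmax : Integrable (fun x => max (U x) 0) (stdGaussian E) := hint.sup (integrable_zero _ _ _)
  have hlayer := hmax.integral_eq_integral_meas_lt (Eventually.of_forall fun x => le_max_right _ _)
  have hset : ∀ t ∈ Ioi (0 : ℝ), (stdGaussian E).real {a | t < max (U a) 0} = P t := by
    intro t ht
    have ht0 : (0 : ℝ) < t := ht
    simp only [hPdef]
    congr 1
    ext x
    simp only [mem_ofPred_eq, lt_max_iff]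
    constructor
    · rintro (h | h)
      · exact h
      · exact absurd h (not_lt.mpr ht0.le)
    · exact fun h => Or.inl h
  have h2 : ∫ x, max (U x) 0 ∂(stdGaussian E) = ∫ t in Ioi (0 : ℝ), P t := by
    rw [hlayer]
    exact setIntegral_congr_fun measurableSet_Ioi hset
  have hPanti : Antitone P := fun s t hst => by
    simp only [hPdef]
    exact measureReal_mono fun x (hx : t < U x) => lt_of_le_of_lt hst hx
  have hPint : IntegrableOn P (Ioi 0) := by
    refine Integrable.mono' hi hPanti.measurable.aestronglyMeasurable ?_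
    filter_upwards [ae_restrict_mem measurableSet_Ioi] with t ht
    have ht0 : (0 : ℝ) < t := ht
    rw [Real.norm_of_nonneg (hP t ht0.le).1.le]
    exact hbound t ht0.le
  calc ∫ x, max (U x) 0 ∂(stdGaussian E) = ∫ t in Ioi (0 : ℝ), P t := h2
    _ ≤ ∫ t in Ioi (0 : ℝ), Phi (α - ρ / gd α * t) :=
        setIntegral_mono_on hPint hi measurableSet_Ioi fun t ht => hbound t (le_of_lt ht)
    _ = (α * Phi α + gd α) / (ρ / gd α) := hv
    _ = gd α / ρ * (α * P 0 + gd α) := by rw [hPα]; field_simp

end Vale.Agent.P226E
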